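import Vale.Agent.P113.Comp

/-!
Uniformly computable families of real numbers.
-/

namespace Vale.Agent.P113

open Encodable

variable {α β : Type*} [Primcodable α] [Primcodable β]

/-- The rational number coded by `(p, q, r)`: `(p - q) / (r + 1)`. -/
noncomputable def tv (x : ℕ × ℕ × ℕ) : ℝ := ((x.1 : ℝ) - (x.2.1 : ℝ)) / ((x.2.2 : ℝ) + 1)

def tadd (x y : ℕ × ℕ × ℕ) : ℕ × ℕ × ℕ :=
  (x.1 * (y.2.2 + 1) + y.1 * (x.2.2 + 1), x.2.1 * (y.2.2 + 1) + y.2.1 * (x.2.2 + 1),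
    x.2.2 * y.2.2 + x.2.2 + y.2.2)

def tmul (x y : ℕ × ℕ × ℕ) : ℕ × ℕ × ℕ :=
  (x.1 * y.1 + x.2.1 * y.2.1, x.1 * y.2.1 + x.2.1 * y.1, x.2.2 * y.2.2 + x.2.2 + y.2.2)

def tneg (x : ℕ × ℕ × ℕ) : ℕ × ℕ × ℕ := (x.2.1, x.1, x.2.2)

theorem tv_add (x y : ℕ × ℕ × ℕ) : tv (tadd x y) = tv x + tv y := by
  have h1 : ((x.2.2 : ℝ) + 1) ≠ 0 := by positivity
  have h2 : ((y.2.2 : ℝ) + 1) ≠ 0 := by positivity
  have h3 : ((x.2.2 : ℝ) * y.2.2 + x.2.2 + y.2.2 + 1) ≠ 0 := by positivity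
  simp only [tv, tadd]
  push_cast
  rw [div_add_div _ _ h1 h2, div_eq_div_iff h3 (mul_ne_zero h1 h2)]
  ring

theorem tv_mul (x y : ℕ × ℕ × ℕ) : tv (tmul x y) = tv x * tv y := by
  have h1 : ((x.2.2 : ℝ) + 1) ≠ 0 := by positivity
  have h2 : ((y.2.2 : ℝ) + 1) ≠ 0 := by positivity
  have h3 : ((x.2.2 : ℝ) * y.2.2 + x.2.2 + y.2.2 + 1) ≠ 0 := by positivity
  simp only [tv, tmul]
  push_cast
  rw [div_mul_div_comm, div_eq_div_iff h3 (mul_ne_zero h1 h2)]
  ring

theorem tv_neg (x : ℕ × ℕ × ℕ) : tv (tneg x) = -tv x := by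
  simp only [tv, tneg]
  rw [← neg_div]; ring_nf

@[fun_prop] theorem c_tadd {f g : α → ℕ × ℕ × ℕ} (hf : Computable f) (hg : Computable g) :
    Computable (fun a => tadd (f a) (g a)) := by
  unfold tadd; fun_prop

@[fun_prop] theorem c_tmul {f g : α → ℕ × ℕ × ℕ} (hf : Computable f) (hg : Computable g) :
    Computable (fun a => tmul (f a) (g a)) := by
  unfold tmul; fun_prop

@[fun_prop] theorem c_tneg {f : α → ℕ × ℕ × ℕ} (hf : Computable f) :
    Computable (fun a => tneg (f a)) := by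
  unfold tneg; fun_prop

/-- A family of real numbers is (uniformly) computable. -/
def CR (f : α → ℝ) : Prop :=
  ∃ g : α × ℕ → ℕ × ℕ × ℕ, Computable g ∧ ∀ a n, |f a - tv (g (a, n))| ≤ 1 / 2 ^ n

theorem CR.of_eq {f g : α → ℝ} (hf : CR f) (h : ∀ a, f a = g a) : CR g := by
  have : f = g := funext h
  rwa [← this]

theorem CR.exact {f : α → ℝ} {g : α → ℕ × ℕ × ℕ} (hg : Computable g) (h : ∀ a, f a = tv (g a)) :
    CR f :=
  ⟨fun p => g p.1, by fun_prop, fun a n => by simp [h a]⟩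

theorem CR.comp {f : β → ℝ} {φ : α → β} (hf : CR f) (hφ : Computable φ) :
    CR (fun a => f (φ a)) := by
  obtain ⟨g, hg, h⟩ := hf
  exact ⟨fun p => g (φ p.1, p.2), by fun_prop, fun a n => h (φ a) n⟩

theorem CR.nat {m : α → ℕ} (hm : Computable m) : CR (fun a => (m a : ℝ)) :=
  CR.exact (g := fun a => (m a, 0, 0)) (by fun_prop) (fun a => by simp [tv])

theorem CR.neg {f : α → ℝ} (hf : CR f) : CR (fun a => -f a) := by
  obtain ⟨g, hg, h⟩ := hf
  refine ⟨fun p => tneg (g p), by fun_prop, fun a n => ?_⟩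
  rw [tv_neg]
  have := h a n
  rwa [← abs_neg, show -(-f a - -tv (g (a, n))) = f a - tv (g (a, n)) by ring]

theorem CR.add {f f' : α → ℝ} (hf : CR f) (hf' : CR f') : CR (fun a => f a + f' a) := by
  obtain ⟨g, hg, h⟩ := hf
  obtain ⟨g', hg', h'⟩ := hf'
  refine ⟨fun p => tadd (g (p.1, p.2 + 1)) (g' (p.1, p.2 + 1)), by fun_prop, fun a n => ?_⟩
  rw [tv_add]
  have h1 := h a (n + 1)
  have h2 := h' a (n + 1)
  calc |f a + f' a - (tv (g (a, n + 1)) + tv (g' (a, n + 1)))|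
      = |(f a - tv (g (a, n + 1))) + (f' a - tv (g' (a, n + 1)))| := by congr 1; ring
    _ ≤ |f a - tv (g (a, n + 1))| + |f' a - tv (g' (a, n + 1))| := abs_add_le _ _
    _ ≤ 1 / 2 ^ (n + 1) + 1 / 2 ^ (n + 1) := add_le_add h1 h2
    _ = 1 / 2 ^ n := by field_simp; ring

theorem CR.sub {f f' : α → ℝ} (hf : CR f) (hf' : CR f') : CR (fun a => f a - f' a) :=
  (hf.add hf'.neg).of_eq fun a => by ring

theorem tv_abs_le (x : ℕ × ℕ × ℕ) : |tv x| ≤ (x.1 : ℝ) + x.2.1 := by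
  unfold tv
  rw [abs_div, abs_of_pos (by positivity : (0 : ℝ) < (x.2.2 : ℝ) + 1)]
  rw [div_le_iff₀ (by positivity)]
  have h1 : |(x.1 : ℝ) - x.2.1| ≤ x.1 + x.2.1 := by
    rw [abs_le]; constructor <;> nlinarith [(Nat.cast_nonneg x.1 : (0 : ℝ) ≤ x.1),
      (Nat.cast_nonneg x.2.1 : (0 : ℝ) ≤ x.2.1)]
  have h2 : (0 : ℝ) ≤ ((x.1 : ℝ) + x.2.1) * x.2.2 := by positivity
  nlinarith

theorem CR.mul {f f' : α → ℝ} (hf : CR f) (hf' : CR f') : CR (fun a => f a * f' a) := by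
  obtain ⟨g, hg, h⟩ := hf
  obtain ⟨g', hg', h'⟩ := hf'
  -- bounds
  set B : α → ℕ := fun a => (g (a, 0)).1 + (g (a, 0)).2.1 + 1 with hB
  set B' : α → ℕ := fun a => (g' (a, 0)).1 + (g' (a, 0)).2.1 + 1 with hB'
  have hBc : Computable B := by fun_prop
  have hBc' : Computable B' := by fun_prop
  set m : α × ℕ → ℕ := fun p => p.2 + (B p.1 + B' p.1 + 1) with hm
  have hmc : Computable m := by fun_prop
  refine ⟨fun p => tmul (g (p.1, m p)) (g' (p.1, m p)), by fun_prop, fun a n => ?_⟩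
  rw [tv_mul]
  have hb1 : |f a| ≤ B a := by
    have h1 := h a 0
    have h2 := tv_abs_le (g (a, 0))
    have : |f a| ≤ |f a - tv (g (a, 0))| + |tv (g (a, 0))| := by
      have := abs_add_le (f a - tv (g (a, 0))) (tv (g (a, 0)))
      simpa using this
    simp only [hB]; push_cast
    norm_num at h1
    linarith
  have hb2 : |f' a| ≤ B' a := by
    have h1 := h' a 0
    have h2 := tv_abs_le (g' (a, 0))
    have : |f' a| ≤ |f' a - tv (g' (a, 0))| + |tv (g' (a, 0))| := by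
      have := abs_add_le (f' a - tv (g' (a, 0))) (tv (g' (a, 0)))
      simpa using this
    simp only [hB']; push_cast
    norm_num at h1
    linarith
  set M := m (a, n) with hM
  have e1 := h a M
  have e2 := h' a M
  have hpow : (1 : ℝ) / 2 ^ M ≤ 1 := by
    rw [div_le_one (by positivity)]; exact one_le_pow₀ (by norm_num)
  have hv2 : |tv (g' (a, M))| ≤ B' a + 1 := by
    have : |tv (g' (a, M))| ≤ |f' a| + |f' a - tv (g' (a, M))| := by
      have := abs_sub_abs_le_abs_sub (tv (g' (a, M))) (f' a)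
      rw [abs_sub_comm] at this
      linarith
    linarith
  have key : |f a * f' a - tv (g (a, M)) * tv (g' (a, M))| ≤ (B a + B' a + 1) * (1 / 2 ^ M) := by
    calc |f a * f' a - tv (g (a, M)) * tv (g' (a, M))|
        = |f a * (f' a - tv (g' (a, M))) + (f a - tv (g (a, M))) * tv (g' (a, M))| := by
          congr 1; ring
      _ ≤ |f a * (f' a - tv (g' (a, M)))| + |(f a - tv (g (a, M))) * tv (g' (a, M))| :=
          abs_add_le _ _
      _ = |f a| * |f' a - tv (g' (a, M))| + |f a - tv (g (a, M))| * |tv (g' (a, M))| := by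
          rw [abs_mul, abs_mul]
      _ ≤ B a * (1 / 2 ^ M) + (1 / 2 ^ M) * (B' a + 1) := by
          gcongr
      _ = _ := by ring
  refine key.trans ?_
  have hM' : M = n + (B a + B' a + 1) := rfl
  have h2pow : ((B a : ℝ) + B' a + 1) ≤ 2 ^ (B a + B' a + 1) := by
    have := (Nat.lt_two_pow_self (n := B a + B' a + 1)).le
    exact_mod_cast this
  rw [hM', pow_add, mul_one_div, div_le_div_iff₀ (by positivity) (by positivity)]
  have hp : (0 : ℝ) < 2 ^ n := by positivity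
  nlinarith

/-- Finite sums. -/
theorem CR.sum {f : α × ℕ → ℝ} {N : α → ℕ} (hf : CR f) (hN : Computable N) :
    CR (fun a => ∑ k ∈ Finset.range (N a), f (a, k)) := by
  obtain ⟨g, hg, h⟩ := hf
  let S : α × ℕ → ℕ → ℕ × ℕ × ℕ := fun p K =>
    Nat.rec (motive := fun _ => ℕ × ℕ × ℕ) (0, 0, 0)
      (fun k s => tadd s (g ((p.1, k), p.2 + N p.1))) K
  have hS : ∀ p K, tv (S p K) = ∑ k ∈ Finset.range K, tv (g ((p.1, k), p.2 + N p.1)) := by
    intro p K
    induction K with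
    | zero => simp [S, tv]
    | succ K ih =>
      rw [Finset.sum_range_succ, ← ih]
      exact tv_add _ _
  refine ⟨fun p => S p (N p.1), ?_, fun a n => ?_⟩
  · exact c_rec (f := fun p : α × ℕ => N p.1) (g := fun _ => (0, 0, 0))
      (h := fun q : (α × ℕ) × ℕ × (ℕ × ℕ × ℕ) =>
        tadd q.2.2 (g ((q.1.1, q.2.1), q.1.2 + N q.1.1)))
      (by fun_prop) (by fun_prop) (by fun_prop)
  · rw [hS, ← Finset.sum_sub_distrib]
    refine (Finset.abs_sum_le_sum_abs _ _).trans ?_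
    refine (Finset.sum_le_sum (fun k _ => h (a, k) (n + N a))).trans ?_
    rw [Finset.sum_const, Finset.card_range, nsmul_eq_mul, pow_add, mul_one_div,
      div_le_div_iff₀ (by positivity) (by positivity)]
    have : (N a : ℝ) ≤ 2 ^ N a := by exact_mod_cast (Nat.lt_two_pow_self (n := N a)).le
    have hp : (0 : ℝ) < 2 ^ n := by positivity
    nlinarith

theorem CR.ite {c : α → Prop} [DecidablePred c] {f f' : α → ℝ}
    (hc : Computable (fun a => decide (c a))) (hf : CR f) (hf' : CR f') :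
    CR (fun a => if c a then f a else f' a) := by
  obtain ⟨g, hg, h⟩ := hf
  obtain ⟨g', hg', h'⟩ := hf'
  refine ⟨fun p => if c p.1 then g p else g' p, ?_, fun a n => ?_⟩
  · exact c_ite (c := fun p : α × ℕ => c p.1) (c_comp hc (by fun_prop)) hg hg'
  · by_cases hca : c a
    · simp only [hca, if_true]; exact h a n
    · simp only [hca, if_false]; exact h' a n

theorem CR.const_nat (m : ℕ) : CR (fun _ : α => (m : ℝ)) := CR.nat (by fun_prop)

theorem CR.zero : CR (fun _ : α => (0 : ℝ)) := (CR.const_nat 0).of_eq (by simp)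
theorem CR.one : CR (fun _ : α => (1 : ℝ)) := (CR.const_nat 1).of_eq (by simp)

theorem CR.ratio {p q : α → ℕ} (hp : Computable p) (hq : Computable q) :
    CR (fun a => (p a : ℝ) / (q a : ℝ)) := by
  have h1 : CR (fun a => if q a = 0 then (0 : ℝ) else tv (p a, 0, q a - 1)) :=
    CR.ite (c_eq hq (by fun_prop)) CR.zero
      (CR.exact (g := fun a => (p a, 0, q a - 1)) (by fun_prop) (fun a => rfl))
  refine h1.of_eq fun a => ?_
  by_cases h : q a = 0
  · simp [h]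
  · have : ((q a - 1 : ℕ) : ℝ) = q a - 1 := by
      rw [Nat.cast_sub (Nat.one_le_iff_ne_zero.2 h)]; simp
    simp [h, tv, this]

/-- `(-1)^e` -/
theorem CR.sign {e : α → ℕ} (he : Computable e) : CR (fun a => (-1 : ℝ) ^ (e a)) := by
  have h1 : CR (fun a => if e a % 2 = 0 then (1 : ℝ) else -1) :=
    CR.ite (c_eq (by fun_prop) (by fun_prop)) CR.one CR.one.neg
  refine h1.of_eq fun a => ?_
  by_cases h : e a % 2 = 0
  · simp [h, (Nat.even_iff.2 h).neg_one_pow]
  · have : Odd (e a) := by rw [Nat.odd_iff]; omega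
    simp [h, this.neg_one_pow]

/-- powers of a ratio of natural numbers -/
theorem CR.ratio_pow {p q e : α → ℕ} (hp : Computable p) (hq : Computable q) (he : Computable e) :
    CR (fun a => ((p a : ℝ) / (q a : ℝ)) ^ (e a)) :=
  (CR.ratio (p := fun a => p a ^ e a) (q := fun a => q a ^ e a) (by fun_prop)
    (by fun_prop)).of_eq fun a => by push_cast; rw [div_pow]

theorem exp_neg_approx (t : ℝ) (ht : 0 ≤ t) (N : ℕ) (hN : 0 < N) (htN : t ≤ N) :
    |Real.exp (-t) - (1 + t / N)⁻¹ ^ N| ≤ t ^ 2 / N := by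
  have hN' : (0 : ℝ) < N := by exact_mod_cast hN
  have hx : 0 ≤ t / N := by positivity
  have hx1 : t / N ≤ 1 := by rw [div_le_one hN']; exact htN
  set x := t / N with hxdef
  set v := (1 + x)⁻¹ ^ N with hv
  have h1 : Real.exp (-t) ≤ v := by
    have : (1 + x) ^ N ≤ Real.exp t := by
      have h := Real.add_one_le_exp x
      have h2 : (1 + x) ^ N ≤ (Real.exp x) ^ N :=
        pow_le_pow_left₀ (by positivity) (by linarith) N
      rw [← Real.exp_nat_mul] at h2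
      have h3 : (N : ℝ) * x = t := by rw [hxdef]; field_simp
      rwa [h3] at h2
    rw [Real.exp_neg, hv, inv_pow]
    exact inv_anti₀ (by positivity) this
  have h2 : (1 - x) ^ N ≤ Real.exp (-t) := Real.one_sub_div_pow_le_exp_neg htN
  have hv1 : v ≤ 1 := by
    rw [hv]
    apply pow_le_one₀ (by positivity)
    exact inv_le_one_of_one_le₀ (by linarith)
  have hv0 : 0 ≤ v := by positivity
  have h3 : v - (1 - x) ^ N ≤ t ^ 2 / N := by
    have e1 : (1 - x) ^ N = v * ((1 - x ^ 2) ^ N) := by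
      rw [hv, ← mul_pow]
      congr 1
      field_simp
      ring
    have e2 : 1 - N * x ^ 2 ≤ (1 - x ^ 2) ^ N := by
      have := one_add_mul_le_pow (a := -x ^ 2) (by nlinarith) N
      calc 1 - N * x ^ 2 = 1 + N * (-x ^ 2) := by ring
        _ ≤ (1 + -x ^ 2) ^ N := this
        _ = _ := by ring
    have e3 : (N : ℝ) * x ^ 2 = t ^ 2 / N := by rw [hxdef]; field_simp
    have e4 : (1 - x ^ 2) ^ N ≤ 1 := by
      apply pow_le_one₀ <;> nlinarith
    rw [e1]
    calc v - v * (1 - x ^ 2) ^ N = v * (1 - (1 - x ^ 2) ^ N) := by ring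
      _ ≤ 1 * (1 - (1 - x ^ 2) ^ N) := by
        apply mul_le_mul_of_nonneg_right hv1; linarith
      _ ≤ t ^ 2 / N := by rw [← e3]; linarith
  rw [abs_sub_comm, abs_of_nonneg (by linarith)]
  linarith

theorem CR.exp_neg_ratio {p q : α → ℕ} (hp : Computable p) (hq : Computable q)
    (hq0 : ∀ a, 0 < q a) : CR (fun a => Real.exp (-((p a : ℝ) / (q a : ℝ)))) := by
  set N : α × ℕ → ℕ := fun x => p x.1 ^ 2 * 2 ^ x.2 + p x.1 + 1 with hNdef
  have hNc : Computable N := by fun_prop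
  refine ⟨fun x => ((N x * q x.1) ^ (N x), 0, (N x * q x.1 + p x.1) ^ (N x) - 1),
    by fun_prop, fun a n => ?_⟩
  have hq' : (0 : ℝ) < q a := by exact_mod_cast hq0 a
  have hq1 : (1 : ℝ) ≤ q a := by exact_mod_cast hq0 a
  have hNpos : 0 < N (a, n) := by simp [hNdef]
  have hN' : (0 : ℝ) < N (a, n) := by exact_mod_cast hNpos
  have hNge : (p a : ℝ) ≤ N (a, n) := by
    have : p a ≤ N (a, n) := by simp only [hNdef]; omega
    exact_mod_cast this
  have hpq : (p a : ℝ) / q a ≤ p a := div_le_self (by positivity) hq1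
  have happ := exp_neg_approx ((p a : ℝ) / q a) (by positivity) (N (a, n)) hNpos
    (hpq.trans hNge)
  have hden : 0 < (N (a, n) * q a + p a) ^ (N (a, n)) :=
    Nat.pow_pos (by have := Nat.mul_pos hNpos (hq0 a); omega)
  have htv : tv ((N (a, n) * q a) ^ (N (a, n)), 0, (N (a, n) * q a + p a) ^ (N (a, n)) - 1)
      = (1 + (p a : ℝ) / q a / N (a, n))⁻¹ ^ (N (a, n)) := by
    simp only [tv]
    rw [Nat.cast_sub hden]
    push_cast
    rw [sub_zero, sub_add_cancel, ← div_pow]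
    congr 1
    field_simp
  show |Real.exp (-((p a : ℝ) / q a)) - tv ((N (a, n) * q a) ^ (N (a, n)), 0,
    (N (a, n) * q a + p a) ^ (N (a, n)) - 1)| ≤ 1 / 2 ^ n
  rw [htv]
  refine happ.trans ?_
  rw [div_le_div_iff₀ hN' (by positivity)]
  have h4 : ((p a : ℝ) / q a) ^ 2 ≤ (p a : ℝ) ^ 2 :=
    pow_le_pow_left₀ (by positivity) hpq 2
  have h5 : (p a : ℝ) ^ 2 * 2 ^ n ≤ N (a, n) := by
    have : p a ^ 2 * 2 ^ n ≤ N (a, n) := by simp only [hNdef]; omega
    exact_mod_cast this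
  nlinarith [(by positivity : (0 : ℝ) < 2 ^ n)]

/-- Conversion to integer approximations. -/
theorem CR.to_int {f : α → ℝ} (hf : CR f) :
    ∃ G : α × ℕ → ℤ, Computable G ∧ ∀ a n, |f a - (G (a, n) : ℝ) / 2 ^ n| ≤ 1 / 2 ^ n := by
  obtain ⟨g, hg, h⟩ := hf
  -- rounding of `(p - q) * 2 ^ n / (r + 1)`
  let rd : ℕ × ℕ × ℕ → ℕ := fun x => (x.1 * 2 ^ x.2.2 * 2 + (x.2.1 + 1)) / (2 * (x.2.1 + 1))
  have hrdc : Computable rd := by fun_prop
  have hrd : ∀ s r n : ℕ, |(s : ℝ) / (r + 1) * 2 ^ n - (rd (s, r, n) : ℝ)| ≤ 1 / 2 := by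
    intro s r n
    set D := 2 * (r + 1) with hD
    set A := s * 2 ^ n * 2 + (r + 1) with hA
    have hDpos : 0 < D := by omega
    have h1 : D * (A / D) ≤ A := Nat.mul_div_le A D
    have h2 : A < D * (A / D) + D := by
      have := Nat.lt_mul_div_succ A hDpos
      rw [Nat.mul_add, Nat.mul_one] at this
      exact this
    have h1' : ((D : ℝ)) * ((A / D : ℕ) : ℝ) ≤ A := by exact_mod_cast h1
    have h2' : (A : ℝ) < D * ((A / D : ℕ) : ℝ) + D := by exact_mod_cast h2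
    have hDr : (D : ℝ) = 2 * (r + 1) := by simp [hD]
    have hAr : (A : ℝ) = s * 2 ^ n * 2 + (r + 1) := by simp [hA]
    have hr : (0 : ℝ) < (r : ℝ) + 1 := by positivity
    have hrdv : (rd (s, r, n) : ℝ) = ((A / D : ℕ) : ℝ) := rfl
    rw [hrdv]
    set Q := ((A / D : ℕ) : ℝ)
    rw [hDr, hAr] at h1' h2'
    have h3 : (s : ℝ) / (r + 1) * 2 ^ n = (s * 2 ^ n) / (r + 1) := by ring
    rw [h3, abs_le]
    constructor
    · rw [le_sub_iff_add_le, le_div_iff₀ hr]; nlinarith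
    · rw [sub_le_iff_le_add, div_le_iff₀ hr]; nlinarith
  let G : α × ℕ → ℤ := fun x =>
    if (g (x.1, x.2 + 1)).2.1 ≤ (g (x.1, x.2 + 1)).1 then
      ((rd ((g (x.1, x.2 + 1)).1 - (g (x.1, x.2 + 1)).2.1, (g (x.1, x.2 + 1)).2.2, x.2) : ℕ) : ℤ)
    else
      -((rd ((g (x.1, x.2 + 1)).2.1 - (g (x.1, x.2 + 1)).1, (g (x.1, x.2 + 1)).2.2, x.2) : ℕ) : ℤ)
  refine ⟨G, c_ite (c_le (by fun_prop) (by fun_prop)) (by fun_prop) (by fun_prop),
    fun a n => ?_⟩
  have e1 := h a (n + 1)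
  rcases hgv : g (a, n + 1) with ⟨p, q, r⟩
  have e2 : |tv (p, q, r) * 2 ^ n - (G (a, n) : ℝ)| ≤ 1 / 2 := by
    by_cases hpq : q ≤ p
    · have : G (a, n) = ((rd (p - q, r, n) : ℕ) : ℤ) := by
        simp only [G, hgv, hpq, if_true]
      rw [this]
      have h5 := hrd (p - q) r n
      rw [Nat.cast_sub hpq] at h5
      simpa [tv] using h5
    · have hpq' : p ≤ q := by omega
      have : G (a, n) = -((rd (q - p, r, n) : ℕ) : ℤ) := by
        simp only [G, hgv, hpq, if_false]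
      rw [this]
      have h5 := hrd (q - p) r n
      rw [Nat.cast_sub hpq'] at h5
      rw [← abs_neg]
      have e3 : -(tv (p, q, r) * 2 ^ n - ((-((rd (q - p, r, n) : ℕ) : ℤ) : ℤ) : ℝ))
          = ((q : ℝ) - p) / (r + 1) * 2 ^ n - (rd (q - p, r, n) : ℝ) := by
        simp only [tv]; push_cast; ring
      rw [e3]; exact h5
  have hpos : (0 : ℝ) < 2 ^ n := by positivity
  have e4 : |tv (p, q, r) - (G (a, n) : ℝ) / 2 ^ n| ≤ 1 / 2 ^ (n + 1) := by
    have : tv (p, q, r) - (G (a, n) : ℝ) / 2 ^ n = (tv (p, q, r) * 2 ^ n - (G (a, n) : ℝ)) / 2 ^ n := by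
      field_simp
    rw [this, abs_div, abs_of_pos hpos, div_le_div_iff₀ hpos (by positivity), pow_succ]
    nlinarith
  rw [hgv] at e1
  calc |f a - (G (a, n) : ℝ) / 2 ^ n|
      ≤ |f a - tv (p, q, r)| + |tv (p, q, r) - (G (a, n) : ℝ) / 2 ^ n| := abs_sub_le _ _ _
    _ ≤ 1 / 2 ^ (n + 1) + 1 / 2 ^ (n + 1) := add_le_add e1 e4
    _ = 1 / 2 ^ n := by field_simp; ring

end Vale.Agent.P113
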