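import Mathlib

/-!
Computability toolbox for problem P113: a compositional interface to `Computable`, and
uniformly computable families of real numbers.
-/

namespace Vale.Agent.P113

open Encodable

section comp

variable {α β γ σ : Type*} [Primcodable α] [Primcodable β] [Primcodable γ] [Primcodable σ]

attribute [fun_prop] Computable

@[fun_prop] theorem c_id : Computable (fun a : α => a) := Computable.id
@[fun_prop] theorem c_const (b : β) : Computable (fun _ : α => b) := Computable.const b
@[fun_prop] theorem c_comp {f : β → γ} {g : α → β} (hf : Computable f) (hg : Computable g) :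
    Computable (fun a => f (g a)) := hf.comp hg
@[fun_prop] theorem c_fst {f : α → β × γ} (hf : Computable f) : Computable (fun a => (f a).1) :=
  Computable.fst.comp hf
@[fun_prop] theorem c_snd {f : α → β × γ} (hf : Computable f) : Computable (fun a => (f a).2) :=
  Computable.snd.comp hf
@[fun_prop] theorem c_pair {f : α → β} {g : α → γ} (hf : Computable f) (hg : Computable g) :
    Computable (fun a => (f a, g a)) := hf.pair hg
@[fun_prop] theorem c_add {f g : α → ℕ} (hf : Computable f) (hg : Computable g) :
    Computable (fun a => f a + g a) := Primrec.nat_add.to_comp.comp hf hg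
@[fun_prop] theorem c_sub {f g : α → ℕ} (hf : Computable f) (hg : Computable g) :
    Computable (fun a => f a - g a) := Primrec.nat_sub.to_comp.comp hf hg
@[fun_prop] theorem c_mul {f g : α → ℕ} (hf : Computable f) (hg : Computable g) :
    Computable (fun a => f a * g a) := Primrec.nat_mul.to_comp.comp hf hg
@[fun_prop] theorem c_div {f g : α → ℕ} (hf : Computable f) (hg : Computable g) :
    Computable (fun a => f a / g a) := Primrec.nat_div.to_comp.comp hf hg
@[fun_prop] theorem c_mod {f g : α → ℕ} (hf : Computable f) (hg : Computable g) :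
    Computable (fun a => f a % g a) := Primrec.nat_mod.to_comp.comp hf hg
@[fun_prop] theorem c_pow {f g : α → ℕ} (hf : Computable f) (hg : Computable g) :
    Computable (fun a => f a ^ g a) :=
  (Primrec₂.unpaired'.1 Nat.Primrec.pow).to_comp.comp hf hg

theorem c_le {f g : α → ℕ} (hf : Computable f) (hg : Computable g) :
    Computable (fun a => decide (f a ≤ g a)) :=
  (Primrec.nat_le.decide).to_comp.comp hf hg
theorem c_lt {f g : α → ℕ} (hf : Computable f) (hg : Computable g) :
    Computable (fun a => decide (f a < g a)) :=
  (Primrec.nat_lt.decide).to_comp.comp hf hg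
theorem c_eq {f g : α → ℕ} (hf : Computable f) (hg : Computable g) :
    Computable (fun a => decide (f a = g a)) :=
  (Primrec.eq (α := ℕ)).decide.to_comp.comp hf hg

theorem c_ite {c : α → Prop} [DecidablePred c] {f g : α → σ}
    (hc : Computable (fun a => decide (c a))) (hf : Computable f) (hg : Computable g) :
    Computable (fun a => if c a then f a else g a) := by
  refine (Computable.cond hc hf hg).of_eq fun a => ?_
  by_cases h : c a <;> simp [h]

@[fun_prop] theorem c_rec {f : α → ℕ} {g : α → σ} {h : α × ℕ × σ → σ} (hf : Computable f)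
    (hg : Computable g) (hh : Computable h) :
    Computable (fun a => Nat.rec (motive := fun _ => σ) (g a) (fun n s => h (a, n, s)) (f a)) :=
  Computable.nat_rec hf hg (h := fun a (p : ℕ × σ) => h (a, p.1, p.2))
    (Computable₂.mk (by fun_prop))

/-! ### Integers -/

/-- `ℤ ≃ ℕ ⊕ ℕ` is compatible with the codings. -/
theorem encode_int_ofNat (n : ℕ) : encode (Int.ofNat n) = 2 * n := rfl

theorem encode_int_negSucc (n : ℕ) : encode (Int.negSucc n) = 2 * n + 1 := rfl

theorem primrec_intEquiv : Primrec (fun z : ℤ => Equiv.intEquivNatSumNat z) := by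
  refine Primrec.encode_iff.1 ?_
  refine Primrec.encode.of_eq fun z => ?_
  cases z with
  | ofNat n => rfl
  | negSucc n => rfl

theorem c_int_casesOn {f : α → ℤ} {g h : α × ℕ → σ} (hf : Computable f) (hg : Computable g)
    (hh : Computable h) :
    Computable (fun a => Int.casesOn (motive := fun _ => σ) (f a) (fun n => g (a, n))
      (fun n => h (a, n))) := by
  have h1 : Computable (fun a => Equiv.intEquivNatSumNat (f a)) :=
    primrec_intEquiv.to_comp.comp hf
  refine (Computable.sumCasesOn h1 (g := fun a n => g (a, n)) (h := fun a n => h (a, n))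
    (Computable₂.mk (by fun_prop)) (Computable₂.mk (by fun_prop))).of_eq fun a => ?_
  rcases f a with n | n <;> rfl

@[fun_prop] theorem c_ofNat {f : α → ℕ} (hf : Computable f) :
    Computable (fun a => ((f a : ℕ) : ℤ)) := by
  have : Computable (fun n : ℕ => (n : ℤ)) := by
    refine Computable.encode_iff.1 ?_
    have h2 : Computable (fun n : ℕ => 2 * n) := by fun_prop
    exact h2.of_eq fun n => rfl
  exact this.comp hf

@[fun_prop] theorem c_negSucc {f : α → ℕ} (hf : Computable f) :
    Computable (fun a => Int.negSucc (f a)) := by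
  have : Computable (fun n : ℕ => Int.negSucc n) := by
    refine Computable.encode_iff.1 ?_
    have h2 : Computable (fun n : ℕ => 2 * n + 1) := by fun_prop
    exact h2.of_eq fun n => rfl
  exact this.comp hf

@[fun_prop] theorem c_negNat {f : α → ℕ} (hf : Computable f) :
    Computable (fun a => -((f a : ℕ) : ℤ)) := by
  have : Computable (fun n : ℕ => -(n : ℤ)) := by
    have h2 : Computable (fun n : ℕ => if n = 0 then (0 : ℤ) else Int.negSucc (n - 1)) := by
      refine c_ite (c_eq (by fun_prop) (by fun_prop)) (by fun_prop) (by fun_prop)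
    refine h2.of_eq fun n => ?_
    cases n with
    | zero => simp
    | succ n => simp [Int.negSucc_eq]
  exact this.comp hf

@[fun_prop] theorem c_toNat {f : α → ℤ} (hf : Computable f) :
    Computable (fun a => (f a).toNat) := by
  refine (c_int_casesOn hf (g := fun p => p.2) (h := fun _ => 0) (by fun_prop)
    (by fun_prop)).of_eq fun a => ?_
  rcases f a with n | n <;> rfl

@[fun_prop] theorem c_negToNat {f : α → ℤ} (hf : Computable f) :
    Computable (fun a => (-(f a)).toNat) := by
  refine (c_int_casesOn hf (g := fun _ => 0) (h := fun p => p.2 + 1) (by fun_prop)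
    (by fun_prop)).of_eq fun a => ?_
  rcases f a with n | n
  · simp
  · rfl

theorem c_int_succ {f : α → ℤ} (hf : Computable f) :
    Computable (fun a => f a + 1) := by
  refine (c_int_casesOn hf (g := fun p => ((p.2 + 1 : ℕ) : ℤ)) (h := fun p => -((p.2 : ℕ) : ℤ))
    (by fun_prop) (by fun_prop)).of_eq fun a => ?_
  rcases f a with n | n
  · simp
  · simp [Int.negSucc_eq]

theorem c_int_pred {f : α → ℤ} (hf : Computable f) :
    Computable (fun a => f a + (-1)) := by
  have hneg : Computable (fun p : α × ℕ => if p.2 = 0 then (-1 : ℤ) else ((p.2 - 1 : ℕ) : ℤ)) :=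
    c_ite (c_eq (by fun_prop) (by fun_prop)) (by fun_prop) (by fun_prop)
  refine (c_int_casesOn hf (h := fun p => Int.negSucc (p.2 + 1))
    hneg (by fun_prop)).of_eq fun a => ?_
  rcases f a with n | n
  · cases n with
    | zero => simp
    | succ n => simp
  · simp [Int.negSucc_eq]; ring

@[fun_prop] theorem c_int_emod {f : α → ℤ} {g : α → ℕ} (hf : Computable f) (hg : Computable g) :
    Computable (fun a => (f a % ((g a : ℤ) + 1)).toNat) := by
  refine (c_int_casesOn hf (g := fun p => p.2 % (g p.1 + 1)) (h := fun p => g p.1 - p.2 % (g p.1 + 1))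
    (by fun_prop) (by fun_prop)).of_eq fun a => ?_
  rcases f a with n | n
  · show n % (g a + 1) = ((n : ℤ) % ((g a : ℤ) + 1)).toNat
    have : ((n : ℤ) % ((g a : ℤ) + 1)) = ((n % (g a + 1) : ℕ) : ℤ) := by push_cast; rfl
    rw [this, Int.toNat_natCast]
  · show g a - n % (g a + 1) = (Int.negSucc n % ((g a : ℤ) + 1)).toNat
    have h1 : n % (g a + 1) < g a + 1 := Nat.mod_lt _ (Nat.succ_pos _)
    rw [Int.negSucc_emod _ (by positivity)]
    have h2 : ((n : ℤ) % ((g a : ℤ) + 1)) = ((n % (g a + 1) : ℕ) : ℤ) := by push_cast; rfl
    rw [h2]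
    omega

/-- decision of `0 ≤ z` -/
theorem c_int_nonneg {f : α → ℤ} (hf : Computable f) :
    Computable (fun a => decide (0 ≤ f a)) := by
  refine (c_int_casesOn hf (g := fun _ => true) (h := fun _ => false) (by fun_prop)
    (by fun_prop)).of_eq fun a => ?_
  rcases f a with n | n
  · simp
  · simp [Int.negSucc_eq]; omega

end comp

end Vale.Agent.P113
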