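import Mathlib

/-!
Definitions for problem P113: halting detection by particle trajectories of forced
Navier-Stokes flows on the flat torus, started from rest.
-/

open scoped ContDiff
open Set

namespace Vale.Agent.P113

/-- `ℝ³`.  A function on the flat torus `𝕋³ = (ℝ/ℤ)³` is a function on `ℝ³` that is `1`-periodic
in each coordinate, see `Periodic3`. -/
abbrev R3 : Type := Fin 3 → ℝ

/-- `g` is `1`-periodic in each of the three coordinates, i.e. `g` is a function on `𝕋³`. -/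
def Periodic3 {E : Type} (g : R3 → E) : Prop :=
  ∀ (x : R3) (i : Fin 3), g (x + Pi.single i 1) = g x

/-- The partial derivative `∂ᵢ g` of a scalar function on `ℝ³`. -/
noncomputable def dx (i : Fin 3) (g : R3 → ℝ) : R3 → ℝ :=
  fun x => lineDeriv ℝ g x (Pi.single i 1)

/-- The projection `ℝ³ → 𝕋³ = (ℝ/ℤ)³`. -/
def toTorus (x : R3) : Fin 3 → UnitAddCircle := fun i => (x i : UnitAddCircle)

/-! ### The Navier-Stokes system -/

/-- `(u, p)` is a classical solution on `[0,T] × 𝕋³` of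
`∂ₜu + (u·∇)u = -∇p + ν Δu + f`, `div u = 0`, `u(0,·) = 0`: the equations hold pointwise, `u`, `∂ₜu`,
the spatial derivatives of `u` up to order two, `p` and `∇p` are continuous on `[0,T] × 𝕋³`, and
`p(t,·)` has mean zero. -/
structure IsClassicalSolution (ν T : ℝ) (f u : ℝ → R3 → R3) (p : ℝ → R3 → ℝ) : Prop where
  periodic_u : ∀ t ∈ Icc 0 T, Periodic3 (u t)
  periodic_p : ∀ t ∈ Icc 0 T, Periodic3 (p t)
  contDiff_u : ∀ t ∈ Icc 0 T, ContDiff ℝ 2 (u t)
  contDiff_p : ∀ t ∈ Icc 0 T, ContDiff ℝ 1 (p t)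
  diff_time : ∀ t ∈ Icc 0 T, ∀ (x : R3) (i : Fin 3),
    DifferentiableWithinAt ℝ (fun s => u s x i) (Icc 0 T) t
  cont_u : ∀ i : Fin 3, ContinuousOn (fun z : ℝ × R3 => u z.1 z.2 i) (Icc 0 T ×ˢ univ)
  cont_dt : ∀ i : Fin 3, ContinuousOn
    (fun z : ℝ × R3 => derivWithin (fun s => u s z.2 i) (Icc 0 T) z.1) (Icc 0 T ×ˢ univ)
  cont_dx : ∀ i j : Fin 3, ContinuousOn
    (fun z : ℝ × R3 => dx j (fun y => u z.1 y i) z.2) (Icc 0 T ×ˢ univ)
  cont_dxx : ∀ i j k : Fin 3, ContinuousOn
    (fun z : ℝ × R3 => dx k (dx j (fun y => u z.1 y i)) z.2) (Icc 0 T ×ˢ univ)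
  cont_p : ContinuousOn (fun z : ℝ × R3 => p z.1 z.2) (Icc 0 T ×ˢ univ)
  cont_dp : ∀ j : Fin 3, ContinuousOn (fun z : ℝ × R3 => dx j (p z.1) z.2) (Icc 0 T ×ˢ univ)
  mean_p : ∀ t ∈ Icc 0 T, ∫ x in Icc (0 : R3) 1, p t x = 0
  momentum : ∀ t ∈ Icc 0 T, ∀ (x : R3) (i : Fin 3),
    derivWithin (fun s => u s x i) (Icc 0 T) t + ∑ j, u t x j * dx j (fun y => u t y i) x
      = - dx i (p t) x + ν * ∑ j, dx j (dx j (fun y => u t y i)) x + f t x i
  div_free : ∀ t ∈ Icc 0 T, ∀ x : R3, ∑ i, dx i (fun y => u t y i) x = 0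
  initial : ∀ x : R3, u 0 x = 0

/-- `f : [0,∞) × 𝕋³ → ℝ³` is a smooth force. -/
def IsSmoothForce (f : ℝ → R3 → R3) : Prop :=
  (∀ t, 0 ≤ t → Periodic3 (f t)) ∧
    ContDiffOn ℝ ∞ (fun z : ℝ × R3 => f z.1 z.2) (Ici 0 ×ˢ univ)

/-- `(u, p)` is a global smooth solution of the system with force `f`. -/
def IsSmoothSolution (ν : ℝ) (f u : ℝ → R3 → R3) (p : ℝ → R3 → ℝ) : Prop :=
  ContDiffOn ℝ ∞ (fun z : ℝ × R3 => u z.1 z.2) (Ici 0 ×ˢ univ) ∧
  ContDiffOn ℝ ∞ (fun z : ℝ × R3 => p z.1 z.2) (Ici 0 ×ˢ univ) ∧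
  ∀ T, 0 < T → IsClassicalSolution ν T f u p

/-- `X` is (a lift to `ℝ³` of) the trajectory of `a` under `u`: `X' = u(t, X)` for `t ≥ 0`,
`X(0) = a`. -/
def IsTrajectory (u : ℝ → R3 → R3) (a : R3) (X : ℝ → R3) : Prop :=
  X 0 = a ∧ ∀ t, 0 ≤ t → HasDerivWithinAt X (u t (X t)) (Ici 0) t

/-! ### Turing machines -/

/-- A deterministic one-tape machine `(q₀, H, δ)`.  States and tape symbols are natural numbers,
the blank is `0`; `q₀` is the start state, `H` the list of halting states, and `δ` a finite list of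
instructions `((q, a), (q', a', m))`: in state `q` reading `a`, write `a'`, go to state `q'` and
move left (`m = some false`), right (`m = some true`) or not at all (`m = none`).  The first
instruction for the pair `(q, a)` counts; if there is none, the machine stays as it is. -/
abbrev Machine : Type := ℕ × List ℕ × List ((ℕ × ℕ) × (ℕ × ℕ × Option Bool))

/-- A configuration: state, head position and contents of the two-sided tape. -/
structure Config where
  state : ℕ
  head : ℤ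
  tape : ℤ → ℕ

/-- The displacement of the head. -/
def shift : Option Bool → ℤ
  | none => 0
  | some false => -1
  | some true => 1

/-- One step of the machine. -/
def Machine.step (M : Machine) (c : Config) : Config :=
  match M.2.2.lookup (c.state, c.tape c.head) with
  | none => c
  | some (q, a, m) => ⟨q, c.head + shift m, Function.update c.tape c.head a⟩

/-- The initial configuration: start state, the word `w` on an otherwise blank tape, the head at
the first cell of `w` (cell `0`). -/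
def Machine.start (M : Machine) (w : List ℕ) : Config :=
  ⟨M.1, 0, fun z => if 0 ≤ z then w.getD z.toNat 0 else 0⟩

/-- `M` halts on `w`: after finitely many steps (possibly none) it is in a halting state. -/
def Machine.Halts (M : Machine) (w : List ℕ) : Prop :=
  ∃ n : ℕ, (M.step^[n] (M.start w)).state ∈ M.2.1

/-! ### Computable reals, effective forces -/

/-- A real number is computable: some algorithm returns on input `n` an integer `g n` with
`|r - g n / 2ⁿ| ≤ 1 / 2ⁿ`. -/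
def IsComputableReal (r : ℝ) : Prop :=
  ∃ g : ℕ → ℤ, Computable g ∧ ∀ n : ℕ, |r - (g n : ℝ) / 2 ^ n| ≤ 1 / 2 ^ n

/-- The mixed derivative `∂ₜ^{k₀} ∂₁^{k₁} ∂₂^{k₂} ∂₃^{k₃} g (t, x)` of `g : [0,∞) × ℝ³ → ℝ`
(one-sided in time at `t = 0`). -/
noncomputable def mixedDeriv (k : ℕ × ℕ × ℕ × ℕ) (g : ℝ → R3 → ℝ) (t : ℝ) (x : R3) : ℝ :=
  iteratedDerivWithin k.1
    (fun s => ((dx 0)^[k.2.1] ((dx 1)^[k.2.2.1] ((dx 2)^[k.2.2.2] (g s)))) x) (Ici 0) t

/-- The program `c` shows that the force `f` is effective: given a multi-index `k`, a component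
`i`, a rational point (time `b₀ / (d+1) ≥ 0`, position `(b₁, b₂, b₃) / (d+1)` with integers
`b₁, b₂, b₃`) and a precision `n`, it returns an integer `z` such that `z / 2ⁿ` differs from the
mixed derivative of order `k` of `fᵢ` at that point by at most `1 / 2ⁿ`.  (Inputs and outputs are
coded by natural numbers in the standard way, `Encodable.encode`.) -/
def Computes (c : Nat.Partrec.Code) (f : ℝ → R3 → R3) : Prop :=
  ∀ (k : ℕ × ℕ × ℕ × ℕ) (i : Fin 3) (b₀ : ℕ) (b : ℤ × ℤ × ℤ) (d n : ℕ), ∃ z : ℤ,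
    Encodable.encode z ∈ c.eval (Encodable.encode (k, i, b₀, b, d, n)) ∧
    |mixedDeriv k (fun t x => f t x i) ((b₀ : ℝ) / (d + 1))
        ![(b.1 : ℝ) / (d + 1), (b.2.1 : ℝ) / (d + 1), (b.2.2 : ℝ) / (d + 1)]
      - (z : ℝ) / 2 ^ n| ≤ 1 / 2 ^ n

/-- `F` is a force compiler producing the forces `f M w`: `F` is an algorithm which on every pair
`(M, w)` outputs a program for the effective smooth force `f M w`, and for some time `T₀`
independent of `(M, w)` the restriction of `f M w` to `t ≥ T₀` is periodic in time and depends on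
`M` only. -/
def IsForceCompiler (F : Machine × List ℕ → Nat.Partrec.Code)
    (f : Machine → List ℕ → ℝ → R3 → R3) : Prop :=
  Computable F ∧
  (∀ M w, IsSmoothForce (f M w) ∧ Computes (F (M, w)) (f M w)) ∧
  ∃ T₀ : ℝ, 0 ≤ T₀ ∧ ∀ M : Machine, ∃ (g : ℝ → R3 → R3) (P : ℝ), 0 < P ∧
    (∀ t, T₀ ≤ t → g (t + P) = g t) ∧ ∀ (w : List ℕ) (t : ℝ), T₀ ≤ t → f M w t = g t

end Vale.Agent.P113
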