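import Mathlib

/-!
The flat function `h0 s = exp(-1/s - 1/(1-s))` on `(0,1)`, its derivatives, and its periodic
extension `hh`.
-/

open scoped ContDiff
open Polynomial

namespace Vale.Agent.P113

/-- (unsigned) Lah numbers -/
def lah : ℕ → ℕ → ℕ
  | 0, 0 => 1
  | 0, _ + 1 => 0
  | k + 1, 0 => k * lah k 0
  | k + 1, j + 1 => lah k j + (k + j + 1) * lah k (j + 1)

theorem lah_eq_zero (k j : ℕ) (h : k < j) : lah k j = 0 := by
  induction k generalizing j with
  | zero =>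
    cases j with
    | zero => omega
    | succ j => rfl
  | succ k ih =>
    cases j with
    | zero => omega
    | succ j => simp [lah, ih j (by omega), ih (j + 1) (by omega)]

/-- The polynomials with `E^(k)(x) = Q_k(1/x) E(x)` for `E(x) = exp(-1/x)`. -/
noncomputable def qpoly : ℕ → ℝ[X]
  | 0 => 1
  | k + 1 => X ^ 2 * (qpoly k - derivative (qpoly k))

noncomputable def lcoef (k j : ℕ) : ℝ := (-1) ^ (k + j) * (lah k j : ℝ)

theorem X_sq_derivative (a : ℝ) (n : ℕ) :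
    (X : ℝ[X]) ^ 2 * derivative (C a * X ^ n) = C (a * n) * X ^ (n + 1) := by
  cases n with
  | zero => simp
  | succ n =>
    rw [derivative_C_mul, derivative_X_pow]
    simp only [Nat.add_sub_cancel, map_mul]
    ring

theorem qpoly_eq (k : ℕ) :
    qpoly k = ∑ j ∈ Finset.range (k + 1), C (lcoef k j) * X ^ (k + j) := by
  induction k with
  | zero => simp [qpoly, lcoef, lah]
  | succ k ih =>
    have hz : lcoef k (k + 1) = 0 := by simp [lcoef, lah_eq_zero k (k + 1) (by omega)]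
    rw [qpoly, mul_sub]
    nth_rewrite 1 [ih]
    rw [ih, derivative_sum, Finset.mul_sum, Finset.mul_sum]
    have e1 : ∀ j, (X : ℝ[X]) ^ 2 * (C (lcoef k j) * X ^ (k + j))
        = C (lcoef k j) * X ^ (k + 1 + (j + 1)) := by
      intro j; ring
    simp only [e1, X_sq_derivative]
    rw [Finset.sum_range_succ' (fun j => C (lcoef (k + 1) j) * X ^ (k + 1 + j))]
    have e2 : ∀ j, C (lcoef (k + 1) (j + 1)) * (X : ℝ[X]) ^ (k + 1 + (j + 1))
        = C (lcoef k j) * X ^ (k + 1 + (j + 1))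
          - C (lcoef k (j + 1) * ((k + (j + 1) : ℕ) : ℝ)) * X ^ (k + (j + 1) + 1) := by
      intro j
      have : lcoef (k + 1) (j + 1) = lcoef k j - lcoef k (j + 1) * ((k + (j + 1) : ℕ) : ℝ) := by
        simp only [lcoef, lah]; push_cast; ring
      rw [this, C_sub, sub_mul]
      congr 2
      ring
    simp only [e2]
    rw [Finset.sum_sub_distrib]
    have e3 : C (lcoef (k + 1) 0) * (X : ℝ[X]) ^ (k + 1 + 0)
        = - (C (lcoef k 0 * ((k + 0 : ℕ) : ℝ)) * X ^ (k + 0 + 1)) := by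
      have : lcoef (k + 1) 0 = - (lcoef k 0 * ((k + 0 : ℕ) : ℝ)) := by
        simp only [lcoef, lah]; push_cast; ring
      rw [this, C_neg]; ring
    rw [e3]
    have e4 := Finset.sum_range_succ'
      (fun j => C (lcoef k j * ((k + j : ℕ) : ℝ)) * (X : ℝ[X]) ^ (k + j + 1)) (k + 1)
    rw [Finset.sum_range_succ] at e4
    simp only [hz, zero_mul, C_0, add_zero] at e4 ⊢
    rw [e4]
    ring

theorem qpoly_eval (k : ℕ) (y : ℝ) :
    (qpoly k).eval y = ∑ j ∈ Finset.range (k + 1), lcoef k j * y ^ (k + j) := by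
  rw [qpoly_eq, eval_finsetSum]
  simp

theorem iteratedDeriv_E (k : ℕ) :
    iteratedDeriv k expNegInvGlue = fun x => (qpoly k).eval x⁻¹ * expNegInvGlue x := by
  induction k with
  | zero => funext x; simp [qpoly]
  | succ k ih =>
    rw [iteratedDeriv_succ, ih]
    funext x
    exact (expNegInvGlue.hasDerivAt_polynomial_eval_inv_mul (qpoly k) x).deriv

theorem E_contDiff : ContDiff ℝ ∞ expNegInvGlue := expNegInvGlue.contDiff

/-- The flat bump on `[0,1]`. -/
noncomputable def h0 (s : ℝ) : ℝ := expNegInvGlue s * expNegInvGlue (1 - s)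

theorem h0_contDiff : ContDiff ℝ ∞ h0 :=
  E_contDiff.mul (E_contDiff.comp (contDiff_const.sub contDiff_id))

theorem iteratedDeriv_h0 (k : ℕ) (s : ℝ) :
    iteratedDeriv k h0 s = ∑ j ∈ Finset.range (k + 1), (k.choose j : ℝ) *
      ((qpoly j).eval s⁻¹ * expNegInvGlue s) *
      ((-1) ^ (k - j) * ((qpoly (k - j)).eval (1 - s)⁻¹ * expNegInvGlue (1 - s))) := by
  have h1 : ContDiffAt ℝ k expNegInvGlue s := (E_contDiff.of_le (by exact_mod_cast le_top)).contDiffAt
  have h2 : ContDiffAt ℝ k (fun s => expNegInvGlue (1 - s)) s :=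
    ((E_contDiff.comp (contDiff_const.sub contDiff_id)).of_le
      (by exact_mod_cast le_top)).contDiffAt
  have h3 : iteratedDeriv k h0 s
      = iteratedDeriv k (fun s => expNegInvGlue s * expNegInvGlue (1 - s)) s := rfl
  rw [h3, iteratedDeriv_fun_mul h1 h2]
  refine Finset.sum_congr rfl fun j _ => ?_
  rw [iteratedDeriv_comp_const_sub, iteratedDeriv_E, iteratedDeriv_E]
  simp

theorem iteratedDeriv_h0_of_le {k : ℕ} {s : ℝ} (hs : s ≤ 0) : iteratedDeriv k h0 s = 0 := by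
  rw [iteratedDeriv_h0]
  refine Finset.sum_eq_zero fun j _ => ?_
  simp [expNegInvGlue.zero_of_nonpos hs]

theorem iteratedDeriv_h0_of_ge {k : ℕ} {s : ℝ} (hs : 1 ≤ s) : iteratedDeriv k h0 s = 0 := by
  rw [iteratedDeriv_h0]
  refine Finset.sum_eq_zero fun j _ => ?_
  simp [expNegInvGlue.zero_of_nonpos (x := 1 - s) (by linarith)]

theorem h0_of_le {s : ℝ} (hs : s ≤ 0) : h0 s = 0 := by
  simp [h0, expNegInvGlue.zero_of_nonpos hs]

theorem h0_of_ge {s : ℝ} (hs : 1 ≤ s) : h0 s = 0 := by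
  simp [h0, expNegInvGlue.zero_of_nonpos (x := 1 - s) (by linarith)]

theorem h0_pos {s : ℝ} (h1 : 0 < s) (h2 : s < 1) : 0 < h0 s :=
  mul_pos (expNegInvGlue.pos_of_pos h1) (expNegInvGlue.pos_of_pos (by linarith))

theorem h0_nonneg (s : ℝ) : 0 ≤ h0 s :=
  mul_nonneg (expNegInvGlue.nonneg _) (expNegInvGlue.nonneg _)

theorem E_le_one (s : ℝ) : expNegInvGlue s ≤ 1 := by
  rw [expNegInvGlue]
  split_ifs with h
  · norm_num
  · push Not at h
    rw [Real.exp_le_one_iff]
    simp [h.le]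

theorem h0_le_one (s : ℝ) : h0 s ≤ 1 :=
  mul_le_one₀ (E_le_one _) (expNegInvGlue.nonneg _) (E_le_one _)

/-- The periodic extension of `h0`. -/
noncomputable def hh (s : ℝ) : ℝ := h0 (Int.fract s)

theorem hh_add_one (s : ℝ) : hh (s + 1) = hh s := by simp [hh]

theorem hh_nonneg (s : ℝ) : 0 ≤ hh s := h0_nonneg _

/-- local representation of `hh` by a smooth function -/
theorem hh_eventuallyEq (s : ℝ) :
    hh =ᶠ[nhds s] fun x => h0 (x - ⌊s⌋) + h0 (x - (⌊s⌋ - 1)) := by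
  have h1 : Set.Ioo ((⌊s⌋ : ℝ) - 1) (⌊s⌋ + 1) ∈ nhds s := by
    apply Ioo_mem_nhds
    · linarith [Int.floor_le s]
    · exact Int.lt_floor_add_one s
  filter_upwards [h1] with x hx
  by_cases hc : (⌊s⌋ : ℝ) ≤ x
  · have hf : ⌊x⌋ = ⌊s⌋ := by
      rw [Int.floor_eq_iff]; exact ⟨hc, hx.2⟩
    have h2 : h0 (x - (⌊s⌋ - 1)) = 0 := h0_of_ge (by linarith)
    rw [h2, add_zero, hh, Int.fract, hf]
  · push Not at hc
    have hf : ⌊x⌋ = ⌊s⌋ - 1 := by
      rw [Int.floor_eq_iff]; push_cast; constructor <;> linarith [hx.1]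
    have h2 : h0 (x - ⌊s⌋) = 0 := h0_of_le (by linarith)
    rw [h2, zero_add, hh, Int.fract, hf]
    push_cast
    rfl

theorem hh_contDiff : ContDiff ℝ ∞ hh := by
  rw [contDiff_iff_contDiffAt]
  intro s
  refine ContDiffAt.congr_of_eventuallyEq ?_ (hh_eventuallyEq s)
  apply ContDiff.contDiffAt
  exact (h0_contDiff.comp (contDiff_id.sub contDiff_const)).add
    (h0_contDiff.comp (contDiff_id.sub contDiff_const))

theorem iteratedDeriv_hh (k : ℕ) (s : ℝ) :
    iteratedDeriv k hh s = iteratedDeriv k h0 (Int.fract s) := by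
  rw [(hh_eventuallyEq s).iteratedDeriv_eq]
  have hk : ContDiff ℝ k h0 := h0_contDiff.of_le (by exact_mod_cast le_top)
  have h1 : ContDiffAt ℝ k (fun x => h0 (x - ⌊s⌋)) s :=
    (hk.comp (contDiff_id.sub contDiff_const)).contDiffAt
  have h2 : ContDiffAt ℝ k (fun x => h0 (x - (⌊s⌋ - 1))) s :=
    (hk.comp (contDiff_id.sub contDiff_const)).contDiffAt
  have h3 := iteratedDeriv_add h1 h2
  have h4 : ((fun x => h0 (x - ⌊s⌋)) + fun x => h0 (x - (⌊s⌋ - 1)))
      = fun x => h0 (x - ⌊s⌋) + h0 (x - (⌊s⌋ - 1)) := rfl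
  rw [h4] at h3
  rw [h3, iteratedDeriv_comp_sub_const, iteratedDeriv_comp_sub_const]
  simp only
  rw [iteratedDeriv_h0_of_ge (s := s - (⌊s⌋ - 1)) (by linarith [Int.floor_le s]), add_zero]
  rfl

theorem hh_zero : hh 0 = 0 := by simp [hh, h0_of_le le_rfl]

theorem hh_of_mem {s : ℝ} (h1 : 0 ≤ s) (h2 : s < 1) : hh s = h0 s := by
  rw [hh, Int.fract_eq_self.2 ⟨h1, h2⟩]

/-- The amplitude of the shear flow: `0` up to time `1`, then `1`-periodic. -/
noncomputable def th (t : ℝ) : ℝ := hh t - h0 t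

theorem th_contDiff : ContDiff ℝ ∞ th := hh_contDiff.sub h0_contDiff

theorem iteratedDeriv_th (k : ℕ) (t : ℝ) :
    iteratedDeriv k th t = iteratedDeriv k hh t - iteratedDeriv k h0 t := by
  have h1 : ContDiffAt ℝ k hh t := (hh_contDiff.of_le (by exact_mod_cast le_top)).contDiffAt
  have h2 : ContDiffAt ℝ k h0 t := (h0_contDiff.of_le (by exact_mod_cast le_top)).contDiffAt
  exact iteratedDeriv_sub h1 h2

theorem iteratedDeriv_th_of_lt {k : ℕ} {t : ℝ} (h1 : 0 ≤ t) (h2 : t < 1) :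
    iteratedDeriv k th t = 0 := by
  rw [iteratedDeriv_th, iteratedDeriv_hh, Int.fract_eq_self.2 ⟨h1, h2⟩, sub_self]

theorem iteratedDeriv_th_of_ge {k : ℕ} {t : ℝ} (h1 : 1 ≤ t) :
    iteratedDeriv k th t = iteratedDeriv k hh t := by
  rw [iteratedDeriv_th, iteratedDeriv_h0_of_ge h1, sub_zero]

theorem th_of_lt {t : ℝ} (h1 : 0 ≤ t) (h2 : t < 1) : th t = 0 := by
  have := iteratedDeriv_th_of_lt (k := 0) h1 h2
  simpa using this

theorem th_of_ge {t : ℝ} (h1 : 1 ≤ t) : th t = hh t := by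
  have := iteratedDeriv_th_of_ge (k := 0) h1
  simpa using this

end Vale.Agent.P113
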