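import Vale.Agent.P113.CReal
import Vale.Agent.P113.Flat

/-!
The derivatives of the flat function at rational points are uniformly computable.
-/

open Polynomial

namespace Vale.Agent.P113

def lahRow : ℕ → List ℕ
  | 0 => [1]
  | k + 1 => (List.range (k + 2)).map
      (fun j => (0 :: lahRow k).getD j 0 + (k + j) * (lahRow k).getD j 0)

theorem lahRow_getD (k j : ℕ) : (lahRow k).getD j 0 = lah k j := by
  induction k generalizing j with
  | zero =>
    cases j with
    | zero => rfl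
    | succ j => simp [lahRow, lah]
  | succ k ih =>
    by_cases hj : j < k + 2
    · have h1 : (lahRow (k + 1)).getD j 0
          = (0 :: lahRow k).getD j 0 + (k + j) * (lahRow k).getD j 0 := by
        rw [lahRow, List.getD_eq_getElem?_getD, List.getElem?_map, List.getElem?_range hj]
        rfl
      rw [h1]
      cases j with
      | zero => simp [lah, ← ih]
      | succ j =>
        have h2 : (0 :: lahRow k).getD (j + 1) 0 = (lahRow k).getD j 0 := rfl
        rw [h2, ih, ih, lah]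
        ring
    · rw [lah_eq_zero (k + 1) j (by omega), List.getD_eq_getElem?_getD,
        List.getElem?_eq_none (by simp [lahRow]; omega)]
      rfl

theorem primrec_lahRow : Primrec lahRow := by
  have h1 : Primrec₂ (fun (p : ℕ × List ℕ) (j : ℕ) =>
      (0 :: p.2).getD j 0 + (p.1 + j) * p.2.getD j 0) := by
    refine Primrec.nat_add.comp ?_ (Primrec.nat_mul.comp ?_ ?_)
    · exact (Primrec.list_getD 0).comp
        (Primrec.list_cons.comp (Primrec.const 0) (Primrec.snd.comp Primrec.fst)) Primrec.snd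
    · exact Primrec.nat_add.comp (Primrec.fst.comp Primrec.fst) Primrec.snd
    · exact (Primrec.list_getD 0).comp (Primrec.snd.comp Primrec.fst) Primrec.snd
  have h2 : Primrec (fun p : ℕ × List ℕ => (List.range (p.1 + 2)).map
      (fun j => (0 :: p.2).getD j 0 + (p.1 + j) * p.2.getD j 0)) :=
    Primrec.list_map (Primrec.list_range.comp
      (Primrec.nat_add.comp Primrec.fst (Primrec.const 2))) h1
  have h3 : Primrec (Nat.rec (motive := fun _ => List ℕ) [1]
      (fun k l => (List.range (k + 2)).map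
      (fun j => (0 :: l).getD j 0 + (k + j) * l.getD j 0))) :=
    Primrec.nat_rec₁ [1] h2
  refine h3.of_eq fun k => ?_
  induction k with
  | zero => rfl
  | succ k ih => rw [lahRow, ← ih]

section

variable {α : Type*} [Primcodable α]

@[fun_prop] theorem c_lah {f g : α → ℕ} (hf : Computable f) (hg : Computable g) :
    Computable (fun a => lah (f a) (g a)) := by
  have h : Computable (fun a => (lahRow (f a)).getD (g a) 0) :=
    (Primrec.list_getD (0 : ℕ)).to_comp.comp (primrec_lahRow.to_comp.comp hf) hg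
  exact h.of_eq fun a => lahRow_getD _ _

@[fun_prop] theorem c_descFactorial {f g : α → ℕ} (hf : Computable f) (hg : Computable g) :
    Computable (fun a => (f a).descFactorial (g a)) := by
  have h : Computable (fun a => Nat.rec (motive := fun _ => ℕ) 1
      (fun k s => (f a - k) * s) (g a)) :=
    c_rec (f := g) (g := fun _ => 1) (h := fun p : α × ℕ × ℕ => (f p.1 - p.2.1) * p.2.2)
      hg (by fun_prop) (by fun_prop)
  refine h.of_eq fun a => ?_
  induction g a with
  | zero => rfl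
  | succ k ih => rw [Nat.descFactorial_succ, ← ih]

@[fun_prop] theorem c_choose {f g : α → ℕ} (hf : Computable f) (hg : Computable g) :
    Computable (fun a => (f a).choose (g a)) := by
  have h : Computable (fun a => (f a).descFactorial (g a) / (g a).descFactorial (g a)) := by
    fun_prop
  refine h.of_eq fun a => ?_
  rw [Nat.choose_eq_descFactorial_div_factorial, Nat.descFactorial_self]

theorem CR.lcoef {f g : α → ℕ} (hf : Computable f) (hg : Computable g) :
    CR (fun a => lcoef (f a) (g a)) := by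
  unfold Vale.Agent.P113.lcoef
  exact (CR.sign (e := fun a => f a + g a) (by fun_prop)).mul
    (CR.nat (m := fun a => lah (f a) (g a)) (by fun_prop))

theorem CR.qpoly {k p q : α → ℕ} (hk : Computable k) (hp : Computable p) (hq : Computable q) :
    CR (fun a => (Vale.Agent.P113.qpoly (k a)).eval ((p a : ℝ) / (q a : ℝ))) := by
  have h1 : CR (fun b : α × ℕ => Vale.Agent.P113.lcoef (k b.1) b.2
      * ((p b.1 : ℝ) / (q b.1 : ℝ)) ^ (k b.1 + b.2)) :=
    (CR.lcoef (f := fun b : α × ℕ => k b.1) (g := fun b => b.2) (by fun_prop) (by fun_prop)).mul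
      (CR.ratio_pow (p := fun b : α × ℕ => p b.1) (q := fun b : α × ℕ => q b.1)
        (e := fun b : α × ℕ => k b.1 + b.2) (by fun_prop) (by fun_prop) (by fun_prop))
  exact (CR.sum (N := fun a => k a + 1) h1 (by fun_prop)).of_eq fun a => by rw [qpoly_eval]

end

theorem E_of_inv {p q : ℕ} (hp : 0 < p) (hq : 0 < q) {s : ℝ} (hs : s⁻¹ = (p : ℝ) / q) :
    expNegInvGlue s = Real.exp (-((p : ℝ) / q)) := by
  have hp' : (0 : ℝ) < p := by exact_mod_cast hp
  have hq' : (0 : ℝ) < q := by exact_mod_cast hq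
  have h0 : 0 < s := by
    rw [← inv_pos, hs]; positivity
  rw [expNegInvGlue, if_neg (not_le.2 h0), hs]

/-- The derivatives of `h0` at rational points. -/
noncomputable def D0 (x : ℕ × ℕ × ℕ) : ℝ := iteratedDeriv x.1 h0 ((x.2.1 : ℝ) / (x.2.2 + 1))

noncomputable def D0t (x : (ℕ × ℕ × ℕ) × ℕ) : ℝ :=
  ((x.1.1.choose x.2 : ℕ) : ℝ) *
    ((qpoly x.2).eval (((x.1.2.2 + 1 : ℕ) : ℝ) / ((x.1.2.1 - 1 + 1 : ℕ) : ℝ))
      * Real.exp (-(((x.1.2.2 + 1 : ℕ) : ℝ) / ((x.1.2.1 - 1 + 1 : ℕ) : ℝ)))) *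
    ((-1) ^ (x.1.1 - x.2) *
      ((qpoly (x.1.1 - x.2)).eval (((x.1.2.2 + 1 : ℕ) : ℝ) / ((x.1.2.2 - x.1.2.1 + 1 : ℕ) : ℝ))
      * Real.exp (-(((x.1.2.2 + 1 : ℕ) : ℝ) / ((x.1.2.2 - x.1.2.1 + 1 : ℕ) : ℝ)))))

theorem CR_D0t : CR D0t := by
  unfold D0t
  refine ((CR.nat (by fun_prop)).mul ((CR.qpoly (by fun_prop) (by fun_prop) (by fun_prop)).mul
    (CR.exp_neg_ratio (by fun_prop) (by fun_prop) (fun a => by positivity)))).mul
    ((CR.sign (by fun_prop)).mul ((CR.qpoly (by fun_prop) (by fun_prop) (by fun_prop)).mul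
    (CR.exp_neg_ratio (by fun_prop) (by fun_prop) (fun a => by positivity))))

theorem CR_D0 : CR D0 := by
  have hs : CR (fun x : ℕ × ℕ × ℕ => ∑ j ∈ Finset.range (x.1 + 1), D0t (x, j)) :=
    CR.sum (f := D0t) (N := fun x => x.1 + 1) CR_D0t (by fun_prop)
  have h1 : CR (fun x : ℕ × ℕ × ℕ => if x.2.1 = 0 then (0 : ℝ) else
      if x.2.2 < x.2.1 then (0 : ℝ) else ∑ j ∈ Finset.range (x.1 + 1), D0t (x, j)) :=
    CR.ite (c_eq (by fun_prop) (by fun_prop)) CR.zero
      (CR.ite (c_lt (by fun_prop) (by fun_prop)) CR.zero hs)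
  refine h1.of_eq fun x => ?_
  obtain ⟨k, m, d⟩ := x
  simp only [D0]
  have hd : (0 : ℝ) < (d : ℝ) + 1 := by positivity
  by_cases hm : m = 0
  · subst hm
    simp only [if_true]
    rw [iteratedDeriv_h0_of_le (by simp)]
  · rw [if_neg hm]
    by_cases hmd : d < m
    · rw [if_pos hmd, iteratedDeriv_h0_of_ge]
      rw [le_div_iff₀ hd]
      have : (d : ℝ) + 1 ≤ m := by exact_mod_cast hmd
      linarith
    · rw [if_neg hmd, iteratedDeriv_h0]
      push Not at hmd
      have hm1 : m - 1 + 1 = m := by omega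
      have hm' : (0 : ℝ) < m := by exact_mod_cast Nat.pos_of_ne_zero hm
      have e1 : ((m : ℝ) / (d + 1))⁻¹ = ((d + 1 : ℕ) : ℝ) / ((m - 1 + 1 : ℕ) : ℝ) := by
        rw [hm1]; push_cast; rw [inv_div]
      have e2 : (1 - (m : ℝ) / (d + 1))⁻¹ = ((d + 1 : ℕ) : ℝ) / ((d - m + 1 : ℕ) : ℝ) := by
        push_cast [Nat.cast_sub hmd]
        have h5 : (1 - (m : ℝ) / (d + 1)) = ((d : ℝ) - m + 1) / (d + 1) := by
          field_simp; ring
        rw [h5, inv_div]
      rw [E_of_inv (Nat.succ_pos d) (Nat.succ_pos _) e1, E_of_inv (Nat.succ_pos d)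
        (Nat.succ_pos _) e2, e1, e2]
      rfl

/-- The derivatives of `hh` at rational points. -/
noncomputable def D1 (x : ℕ × ℤ × ℕ) : ℝ := iteratedDeriv x.1 hh ((x.2.1 : ℝ) / (x.2.2 + 1))

theorem CR_D1 : CR D1 := by
  have h1 : CR (fun x : ℕ × ℤ × ℕ => D0 (x.1, (x.2.1 % ((x.2.2 : ℤ) + 1)).toNat, x.2.2)) :=
    CR_D0.comp (φ := fun x : ℕ × ℤ × ℕ => (x.1, (x.2.1 % ((x.2.2 : ℤ) + 1)).toNat, x.2.2))
      (by fun_prop)
  refine h1.of_eq fun x => ?_
  obtain ⟨k, b, d⟩ := x
  simp only [D0, D1]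
  rw [iteratedDeriv_hh]
  congr 1
  have h2 := Int.fract_div_intCast_eq_div_intCast_mod (k := ℝ) (m := b) (n := d + 1)
  push_cast at h2
  rw [h2]
  congr 1
  have h3 : 0 ≤ b % ((d : ℤ) + 1) := Int.emod_nonneg _ (by positivity)
  have h4 : (((b % ((d : ℤ) + 1)).toNat : ℤ) : ℝ) = ((b % ((d : ℤ) + 1) : ℤ) : ℝ) := by
    rw [Int.toNat_of_nonneg h3]
  exact_mod_cast h4

/-- The derivatives of `th` at nonnegative rational points. -/
noncomputable def D2 (x : ℕ × ℕ × ℕ) : ℝ := iteratedDeriv x.1 th ((x.2.1 : ℝ) / (x.2.2 + 1))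

theorem CR_D2 : CR D2 := by
  have h1 : CR (fun x : ℕ × ℕ × ℕ => if x.2.1 ≤ x.2.2 then (0 : ℝ) else
      D1 (x.1, ((x.2.1 : ℕ) : ℤ), x.2.2)) :=
    CR.ite (c_le (by fun_prop) (by fun_prop)) CR.zero
      (CR_D1.comp (φ := fun x : ℕ × ℕ × ℕ => (x.1, ((x.2.1 : ℕ) : ℤ), x.2.2)) (by fun_prop))
  refine h1.of_eq fun x => ?_
  obtain ⟨k, m, d⟩ := x
  simp only [D1, D2]
  have hd : (0 : ℝ) < (d : ℝ) + 1 := by positivity
  by_cases h : m ≤ d
  · rw [if_pos h, iteratedDeriv_th_of_lt (by positivity)]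
    rw [div_lt_one hd]
    have : (m : ℝ) ≤ d := by exact_mod_cast h
    linarith
  · rw [if_neg h, iteratedDeriv_th_of_ge]
    · simp
    · rw [le_div_iff₀ hd]
      have : (d : ℝ) + 1 ≤ m := by exact_mod_cast (not_le.1 h)
      linarith

end Vale.Agent.P113
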