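import Vale.Agent.P113.Sim
import Vale.Agent.P113.FlatComp

/-!
The force, its mixed derivatives, and the compiler.
-/

open scoped ContDiff
open Set

namespace Vale.Agent.P113

/-- The velocity field. -/
noncomputable def vel (x : Machine × List ℕ) (t : ℝ) (y : R3) : R3 :=
  ![x0 x * h0 t, th t * hh (y 0), 0]

/-- The force. -/
noncomputable def force (ν : ℝ) (x : Machine × List ℕ) (t : ℝ) (y : R3) : R3 :=
  ![x0 x * deriv h0 t, deriv th t * hh (y 0) - ν * th t * iteratedDeriv 2 hh (y 0), 0]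

/-! ### Mixed derivatives -/

theorem dx_zero_comp (F : ℝ → ℝ) : dx 0 (fun y : R3 => F (y 0)) = fun y => deriv F (y 0) := by
  funext y
  simp only [dx, lineDeriv]
  have : (fun t : ℝ => F ((y + t • (Pi.single 0 1 : R3)) 0)) = fun t => F (y 0 + t) := by
    funext t; simp
  rw [this, deriv_comp_const_add]
  simp

theorem dx_ne_comp (F : ℝ → ℝ) {i : Fin 3} (hi : i ≠ 0) :
    dx i (fun y : R3 => F (y 0)) = fun _ => 0 := by
  funext y
  simp only [dx, lineDeriv]
  have : (fun t : ℝ => F ((y + t • (Pi.single i 1 : R3)) 0)) = fun t => F (y 0) := by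
    funext t; simp [hi.symm]
  rw [this, deriv_const]

theorem dx_const_zero (i : Fin 3) : dx i (fun _ : R3 => (0 : ℝ)) = fun _ => 0 := by
  funext y
  simp [dx, lineDeriv]

theorem dx_iter_zero_comp (F : ℝ → ℝ) (k : ℕ) :
    (dx 0)^[k] (fun y : R3 => F (y 0)) = fun y => iteratedDeriv k F (y 0) := by
  induction k generalizing F with
  | zero => simp
  | succ k ih => rw [Function.iterate_succ_apply, dx_zero_comp, ih, iteratedDeriv_succ']

theorem dx_iter_const_zero (i : Fin 3) (k : ℕ) :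
    (dx i)^[k] (fun _ : R3 => (0 : ℝ)) = fun _ => 0 := by
  induction k with
  | zero => rfl
  | succ k ih => rw [Function.iterate_succ_apply, dx_const_zero, ih]

theorem dx_iter_ne_comp (F : ℝ → ℝ) {i : Fin 3} (hi : i ≠ 0) (k : ℕ) :
    (dx i)^[k] (fun y : R3 => F (y 0)) = if k = 0 then (fun y => F (y 0)) else fun _ => 0 := by
  cases k with
  | zero => simp
  | succ k => rw [Function.iterate_succ_apply, dx_ne_comp F hi, dx_iter_const_zero]; simp

theorem space_deriv (F : ℝ → ℝ) (k : ℕ × ℕ × ℕ × ℕ) :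
    (dx 0)^[k.2.1] ((dx 1)^[k.2.2.1] ((dx 2)^[k.2.2.2] (fun y : R3 => F (y 0))))
      = fun y => if k.2.2.1 = 0 ∧ k.2.2.2 = 0 then iteratedDeriv k.2.1 F (y 0) else 0 := by
  rw [dx_iter_ne_comp F (by decide)]
  by_cases h2 : k.2.2.2 = 0
  · rw [if_pos h2, dx_iter_ne_comp F (by decide)]
    by_cases h1 : k.2.2.1 = 0
    · rw [if_pos h1, dx_iter_zero_comp]; simp [h1, h2]
    · rw [if_neg h1, dx_iter_const_zero]; simp [h1]
  · rw [if_neg h2, dx_iter_const_zero, dx_iter_const_zero]; simp [h2]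

theorem contDiffAt_nat {F : ℝ → ℝ} (hF : ContDiff ℝ ∞ F) (n : ℕ) (r : ℝ) :
    ContDiffAt ℝ n F r := (hF.of_le (by exact_mod_cast le_top)).contDiffAt

theorem mixedDeriv_formula {A B F G : ℝ → ℝ} (hA : ContDiff ℝ ∞ A) (hB : ContDiff ℝ ∞ B)
    (hF : ContDiff ℝ ∞ F) (hG : ContDiff ℝ ∞ G) (k : ℕ × ℕ × ℕ × ℕ) {t : ℝ} (ht : 0 ≤ t)
    (y : R3) :
    mixedDeriv k (fun t y => A t * F (y 0) - B t * G (y 0)) t y
      = if k.2.2.1 = 0 ∧ k.2.2.2 = 0 then
          iteratedDeriv k.1 A t * iteratedDeriv k.2.1 F (y 0)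
            - iteratedDeriv k.1 B t * iteratedDeriv k.2.1 G (y 0)
        else 0 := by
  unfold mixedDeriv
  have e1 : ∀ s : ℝ, ((dx 0)^[k.2.1] ((dx 1)^[k.2.2.1] ((dx 2)^[k.2.2.2]
      (fun y : R3 => A s * F (y 0) - B s * G (y 0))))) y
      = if k.2.2.1 = 0 ∧ k.2.2.2 = 0 then
          A s * iteratedDeriv k.2.1 F (y 0) - B s * iteratedDeriv k.2.1 G (y 0) else 0 := by
    intro s
    have := congrFun (space_deriv (fun r => A s * F r - B s * G r) k) y
    rw [this]
    congr 1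
    have h1 : ContDiffAt ℝ k.2.1 (fun r => A s * F r) (y 0) :=
      (contDiffAt_const).mul (contDiffAt_nat hF _ _)
    have h2 : ContDiffAt ℝ k.2.1 (fun r => B s * G r) (y 0) :=
      (contDiffAt_const).mul (contDiffAt_nat hG _ _)
    have h3 := iteratedDeriv_sub h1 h2
    have h4 : ((fun r => A s * F r) - fun r => B s * G r) = fun r => A s * F r - B s * G r := rfl
    rw [h4] at h3
    rw [h3, iteratedDeriv_const_mul _ (contDiffAt_nat hF _ _),
      iteratedDeriv_const_mul _ (contDiffAt_nat hG _ _)]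
  simp only [e1]
  by_cases hk : k.2.2.1 = 0 ∧ k.2.2.2 = 0
  · simp only [hk, and_self, if_true]
    set c := iteratedDeriv k.2.1 F (y 0)
    set c' := iteratedDeriv k.2.1 G (y 0)
    have h1 : ContDiffAt ℝ k.1 (fun s => A s * c) t :=
      (contDiffAt_nat hA _ _).mul contDiffAt_const
    have h2 : ContDiffAt ℝ k.1 (fun s => B s * c') t :=
      (contDiffAt_nat hB _ _).mul contDiffAt_const
    rw [iteratedDerivWithin_eq_iteratedDeriv (uniqueDiffOn_Ici 0) (h1.sub h2) ht]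
    have h3 := iteratedDeriv_sub h1 h2
    have h4 : ((fun s => A s * c) - fun s => B s * c') = fun s => A s * c - B s * c' := rfl
    rw [h4] at h3
    rw [h3]
    have h5 : (fun s => A s * c) = fun s => c * A s := by funext s; ring
    have h6 : (fun s => B s * c') = fun s => c' * B s := by funext s; ring
    rw [h5, h6, iteratedDeriv_const_mul _ (contDiffAt_nat hA _ _),
      iteratedDeriv_const_mul _ (contDiffAt_nat hB _ _)]
    ring
  · simp only [hk, if_false]
    rw [iteratedDerivWithin_eq_iteratedDeriv (uniqueDiffOn_Ici 0) contDiffAt_const ht,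
      iteratedDeriv_const]
    simp

theorem deriv_contDiff {F : ℝ → ℝ} (hF : ContDiff ℝ ∞ F) : ContDiff ℝ ∞ (deriv F) :=
  hF.iterate_deriv 1

theorem iteratedDeriv_contDiff {F : ℝ → ℝ} (hF : ContDiff ℝ ∞ F) (n : ℕ) :
    ContDiff ℝ ∞ (iteratedDeriv n F) := by
  rw [iteratedDeriv_eq_iterate]; exact hF.iterate_deriv n

theorem iteratedDeriv_iteratedDeriv (F : ℝ → ℝ) (m n : ℕ) :
    iteratedDeriv m (iteratedDeriv n F) = iteratedDeriv (m + n) F := by
  rw [iteratedDeriv_eq_iterate, iteratedDeriv_eq_iterate, iteratedDeriv_eq_iterate,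
    ← Function.iterate_add_apply]

theorem mixedDeriv_force0 (ν : ℝ) (x : Machine × List ℕ) (k : ℕ × ℕ × ℕ × ℕ) {t : ℝ}
    (ht : 0 ≤ t) (y : R3) :
    mixedDeriv k (fun t y => force ν x t y 0) t y
      = if k.2.2.1 = 0 ∧ k.2.2.2 = 0 then
          (if k.2.1 = 0 then x0 x * iteratedDeriv (k.1 + 1) h0 t else 0) else 0 := by
  have h := mixedDeriv_formula (A := fun t => x0 x * deriv h0 t) (B := fun _ => 0)
    (F := fun _ => 1) (G := fun _ => 1)
    (contDiff_const.mul (deriv_contDiff h0_contDiff)) contDiff_const contDiff_const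
    contDiff_const k ht y
  have e : (fun (t : ℝ) (y : R3) => force ν x t y 0)
      = fun t y => x0 x * deriv h0 t * 1 - 0 * 1 := by
    funext t y; simp [force]
  rw [e, h]
  congr 1
  rw [iteratedDeriv_const_mul _ (contDiffAt_nat (deriv_contDiff h0_contDiff) _ _),
    iteratedDeriv_succ', iteratedDeriv_const, iteratedDeriv_const]
  by_cases h1 : k.2.1 = 0 <;> simp [h1]

theorem mixedDeriv_force1 (ν : ℝ) (x : Machine × List ℕ) (k : ℕ × ℕ × ℕ × ℕ) {t : ℝ}
    (ht : 0 ≤ t) (y : R3) :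
    mixedDeriv k (fun t y => force ν x t y 1) t y
      = if k.2.2.1 = 0 ∧ k.2.2.2 = 0 then
          iteratedDeriv (k.1 + 1) th t * iteratedDeriv k.2.1 hh (y 0)
            - ν * iteratedDeriv k.1 th t * iteratedDeriv (k.2.1 + 2) hh (y 0)
        else 0 := by
  have h := mixedDeriv_formula (A := fun t => deriv th t) (B := fun t => ν * th t)
    (F := hh) (G := iteratedDeriv 2 hh)
    (deriv_contDiff th_contDiff) (contDiff_const.mul th_contDiff) hh_contDiff
    (iteratedDeriv_contDiff hh_contDiff 2) k ht y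
  have e : (fun (t : ℝ) (y : R3) => force ν x t y 1)
      = fun t y => deriv th t * hh (y 0) - ν * th t * iteratedDeriv 2 hh (y 0) := by
    funext t y; simp [force]
  have e3 : iteratedDeriv k.1 (fun t => deriv th t) t = iteratedDeriv (k.1 + 1) th t := by
    rw [iteratedDeriv_succ']
  rw [e, h]
  congr 1
  rw [iteratedDeriv_const_mul _ (contDiffAt_nat th_contDiff _ _), e3,
    iteratedDeriv_iteratedDeriv]

theorem mixedDeriv_force2 (ν : ℝ) (x : Machine × List ℕ) (k : ℕ × ℕ × ℕ × ℕ) {t : ℝ}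
    (ht : 0 ≤ t) (y : R3) :
    mixedDeriv k (fun t y => force ν x t y 2) t y = 0 := by
  have h := mixedDeriv_formula (A := fun _ => 0) (B := fun _ => 0)
    (F := fun _ => 1) (G := fun _ => 1)
    contDiff_const contDiff_const contDiff_const
    contDiff_const k ht y
  have e : (fun (t : ℝ) (y : R3) => force ν x t y 2)
      = fun t y => (0 : ℝ) * 1 - 0 * 1 := by
    funext t y; simp [force]
  rw [e, h, iteratedDeriv_const]
  by_cases h1 : k.1 = 0 <;> simp [h1]

/-! ### The compiler -/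

/-- The data of a query except for the precision. -/
abbrev Query : Type := (ℕ × ℕ × ℕ × ℕ) × Fin 3 × ℕ × (ℤ × ℤ × ℤ) × ℕ

noncomputable def answer (ν : ℝ) (a : (Machine × List ℕ) × Query) : ℝ :=
  mixedDeriv a.2.1 (fun t x => force ν a.1 t x a.2.2.1) ((a.2.2.2.1 : ℝ) / (a.2.2.2.2.2 + 1))
        ![(a.2.2.2.2.1.1 : ℝ) / (a.2.2.2.2.2 + 1), (a.2.2.2.2.1.2.1 : ℝ) / (a.2.2.2.2.2 + 1),
          (a.2.2.2.2.1.2.2 : ℝ) / (a.2.2.2.2.2 + 1)]

theorem CR_nu {ν : ℝ} (hν : IsComputableReal ν) {α : Type*} [Primcodable α] :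
    CR (fun _ : α => ν) := by
  obtain ⟨g, hg, h⟩ := hν
  have hg2 : Computable (fun p : α × ℕ => g p.2) := c_comp hg (by fun_prop)
  refine ⟨fun p => ((g p.2).toNat, (-(g p.2)).toNat, 2 ^ p.2 - 1),
    c_pair (c_toNat hg2) (c_pair (c_negToNat hg2) (by fun_prop)), fun a n => ?_⟩
  have e : tv ((g n).toNat, (-(g n)).toNat, 2 ^ n - 1) = (g n : ℝ) / 2 ^ n := by
    simp only [tv]
    rw [Nat.cast_sub Nat.one_le_two_pow]
    push_cast
    rw [sub_add_cancel]
    congr 1
    have := Int.toNat_sub_toNat_neg (g n)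
    exact_mod_cast this
  rw [e]
  exact h n

theorem c_fin_val {α : Type*} [Primcodable α] {f : α → Fin 3} (hf : Computable f) :
    Computable (fun a => ((f a : Fin 3) : ℕ)) :=
  (Primrec.fin_val (n := 3)).to_comp.comp hf

theorem CR_answer {ν : ℝ} (hν : IsComputableReal ν) : CR (answer ν) := by
  have hi : Computable (fun a : (Machine × List ℕ) × Query => ((a.2.2.1 : Fin 3) : ℕ)) :=
    c_fin_val (by fun_prop)
  have hx0 : CR (fun a : (Machine × List ℕ) × Query => x0 a.1) :=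
    CR_x0.comp (φ := fun a : (Machine × List ℕ) × Query => a.1) (by fun_prop)
  have hD0 : CR (fun a : (Machine × List ℕ) × Query => D0 (a.2.1.1 + 1, a.2.2.2.1, a.2.2.2.2.2)) :=
    CR_D0.comp (φ := fun a : (Machine × List ℕ) × Query =>
      (a.2.1.1 + 1, a.2.2.2.1, a.2.2.2.2.2)) (by fun_prop)
  have hT1 : CR (fun a : (Machine × List ℕ) × Query => D2 (a.2.1.1 + 1, a.2.2.2.1, a.2.2.2.2.2)) :=
    CR_D2.comp (φ := fun a : (Machine × List ℕ) × Query =>
      (a.2.1.1 + 1, a.2.2.2.1, a.2.2.2.2.2)) (by fun_prop)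
  have hT0 : CR (fun a : (Machine × List ℕ) × Query => D2 (a.2.1.1, a.2.2.2.1, a.2.2.2.2.2)) :=
    CR_D2.comp (φ := fun a : (Machine × List ℕ) × Query =>
      (a.2.1.1, a.2.2.2.1, a.2.2.2.2.2)) (by fun_prop)
  have hH0 : CR (fun a : (Machine × List ℕ) × Query =>
      D1 (a.2.1.2.1, a.2.2.2.2.1.1, a.2.2.2.2.2)) :=
    CR_D1.comp (φ := fun a : (Machine × List ℕ) × Query =>
      (a.2.1.2.1, a.2.2.2.2.1.1, a.2.2.2.2.2)) (by fun_prop)
  have hH2 : CR (fun a : (Machine × List ℕ) × Query =>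
      D1 (a.2.1.2.1 + 2, a.2.2.2.2.1.1, a.2.2.2.2.2)) :=
    CR_D1.comp (φ := fun a : (Machine × List ℕ) × Query =>
      (a.2.1.2.1 + 2, a.2.2.2.2.1.1, a.2.2.2.2.2)) (by fun_prop)
  have hc2 : CR (fun a : (Machine × List ℕ) × Query =>
      if a.2.1.2.1 = 0 then x0 a.1 * D0 (a.2.1.1 + 1, a.2.2.2.1, a.2.2.2.2.2) else 0) :=
    CR.ite (c_eq (by fun_prop) (by fun_prop)) (hx0.mul hD0) CR.zero
  have hc1 : CR (fun a : (Machine × List ℕ) × Query =>
      D2 (a.2.1.1 + 1, a.2.2.2.1, a.2.2.2.2.2) * D1 (a.2.1.2.1, a.2.2.2.2.1.1, a.2.2.2.2.2)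
        - ν * D2 (a.2.1.1, a.2.2.2.1, a.2.2.2.2.2)
          * D1 (a.2.1.2.1 + 2, a.2.2.2.2.1.1, a.2.2.2.2.2)) :=
    (hT1.mul hH0).sub (((CR_nu hν).mul hT0).mul hH2)
  have hb : Computable (fun a : (Machine × List ℕ) × Query =>
      decide (a.2.1.2.2.1 + a.2.1.2.2.2 = 0)) := c_eq (by fun_prop) (by fun_prop)
  have h := CR.ite (c := fun a : (Machine × List ℕ) × Query => a.2.1.2.2.1 + a.2.1.2.2.2 = 0) hb
    (CR.ite (c := fun a : (Machine × List ℕ) × Query => ((a.2.2.1 : Fin 3) : ℕ) = 0)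
      (c_eq hi (by fun_prop)) hc2
      (CR.ite (c := fun a : (Machine × List ℕ) × Query => ((a.2.2.1 : Fin 3) : ℕ) = 1)
        (c_eq hi (by fun_prop)) hc1 CR.zero)) CR.zero
  refine h.of_eq fun a => ?_
  obtain ⟨x, k, i, b0, b, d⟩ := a
  have hd : (0 : ℝ) ≤ (b0 : ℝ) / (d + 1) := by positivity
  simp only [answer]
  fin_cases i
  · have := mixedDeriv_force0 ν x k hd
      ![(b.1 : ℝ) / (d + 1), (b.2.1 : ℝ) / (d + 1), (b.2.2 : ℝ) / (d + 1)]
    simp only [Fin.zero_eta, Fin.isValue] at this ⊢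
    rw [this]
    simp [D0]
  · have := mixedDeriv_force1 ν x k hd
      ![(b.1 : ℝ) / (d + 1), (b.2.1 : ℝ) / (d + 1), (b.2.2 : ℝ) / (d + 1)]
    simp only [Fin.mk_one, Fin.isValue] at this ⊢
    rw [this]
    simp [D1, D2]
  · have := mixedDeriv_force2 ν x k hd
      ![(b.1 : ℝ) / (d + 1), (b.2.1 : ℝ) / (d + 1), (b.2.2 : ℝ) / (d + 1)]
    simp only [Fin.reduceFinMk, Fin.isValue] at this ⊢
    rw [this]
    simp

theorem exists_compiler {ν : ℝ} (hν : IsComputableReal ν) :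
    ∃ F : Machine × List ℕ → Nat.Partrec.Code, Computable F ∧
      ∀ x, Computes (F x) (force ν x) := by
  obtain ⟨G, hG, hGa⟩ := (CR_answer hν).to_int
  have hH : Computable (fun x : (Machine × List ℕ) ×
      ((ℕ × ℕ × ℕ × ℕ) × Fin 3 × ℕ × (ℤ × ℤ × ℤ) × ℕ × ℕ) =>
      G ((x.1, (x.2.1, x.2.2.1, x.2.2.2.1, x.2.2.2.2.1, x.2.2.2.2.2.1)), x.2.2.2.2.2.2)) := by
    fun_prop
  obtain ⟨c, hc⟩ := Nat.Partrec.Code.exists_code.1 hH
  refine ⟨fun x => Nat.Partrec.Code.curry c (Encodable.encode x), ?_, ?_⟩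
  · exact (Nat.Partrec.Code.primrec₂_curry.to_comp).comp (Computable.const c) Computable.encode
  · intro x k i b0 b d n
    refine ⟨G ((x, (k, i, b0, b, d)), n), ?_, ?_⟩
    · rw [Nat.Partrec.Code.eval_curry, hc]
      have : Nat.pair (Encodable.encode x) (Encodable.encode (k, i, b0, b, d, n))
          = Encodable.encode (x, (k, i, b0, b, d, n)) := rfl
      rw [this]
      simp only [Encodable.encodek]
      exact Part.mem_bind (Part.mem_some _) (Part.mem_map _ (Part.mem_some _))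
    · exact hGa (x, (k, i, b0, b, d)) n

end Vale.Agent.P113
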