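import Vale.Agent.P113.Defs

/-!
Uniqueness of classical solutions: the divergence theorem on the torus and the energy inequality.
-/

open scoped ContDiff
open Set MeasureTheory

namespace Vale.Agent.P113

/-- the fundamental cube -/
abbrev cube : Set R3 := Icc 0 1

theorem dx_eq_fderiv {g : R3 → ℝ} {x : R3} (h : DifferentiableAt ℝ g x) (i : Fin 3) :
    dx i g x = fderiv ℝ g x (Pi.single i 1) := h.lineDeriv_eq_fderiv

theorem hasDerivAt_line {g : R3 → ℝ} {x : R3} (h : DifferentiableAt ℝ g x) (i : Fin 3) :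
    HasDerivAt (fun t : ℝ => g (x + t • (Pi.single i 1 : R3))) (dx i g x) 0 := by
  have := h.hasFDerivAt.hasLineDerivAt (Pi.single i 1 : R3)
  rw [dx_eq_fderiv h]
  exact this

theorem contDiff_dx {g : R3 → ℝ} (h : ContDiff ℝ 2 g) (i : Fin 3) : ContDiff ℝ 1 (dx i g) := by
  have h1 : dx i g = fun x => fderiv ℝ g x (Pi.single i 1) := by
    funext x
    exact dx_eq_fderiv (h.differentiable (by norm_num)).differentiableAt i
  rw [h1]
  exact (h.fderiv_right (m := 1) (by norm_num)).clm_apply contDiff_const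

theorem continuous_dx {g : R3 → ℝ} (h : ContDiff ℝ 1 g) (i : Fin 3) : Continuous (dx i g) := by
  have h1 : dx i g = fun x => fderiv ℝ g x (Pi.single i 1) := by
    funext x
    exact dx_eq_fderiv (h.differentiable (by norm_num)).differentiableAt i
  rw [h1]
  exact (h.continuous_fderiv (by norm_num)).clm_apply continuous_const

theorem periodic_dx {g : R3 → ℝ} (h : Periodic3 g) (i : Fin 3) : Periodic3 (dx i g) := by
  intro x j
  simp only [dx, lineDeriv]
  congr 1
  funext t
  have : x + Pi.single j 1 + t • (Pi.single i 1 : R3) = (x + t • Pi.single i 1) + Pi.single j 1 := by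
    abel
  rw [this]
  exact h _ j

/-- The divergence theorem on the torus. -/
theorem integral_div_eq_zero (G : R3 → R3) (hG : ∀ i, ContDiff ℝ 1 (fun y => G y i))
    (hper : ∀ i, Periodic3 (fun y => G y i)) :
    ∫ x in cube, ∑ i, dx i (fun y => G y i) x = 0 := by
  have hG1 : ContDiff ℝ 1 G := contDiff_pi.2 hG
  have hd : Differentiable ℝ G := hG1.differentiable (by norm_num)
  have hdi : ∀ i, Differentiable ℝ (fun y => G y i) := fun i => (hG i).differentiable (by norm_num)
  have e1 : ∀ x i, dx i (fun y => G y i) x = (fderiv ℝ G x) (Pi.single i 1) i := by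
    intro x i
    rw [dx_eq_fderiv (hdi i x)]
    have := (hasFDerivAt_pi'.1 (hd x).hasFDerivAt) i
    rw [this.fderiv]
    rfl
  have hcont : Continuous (fun x => ∑ i, dx i (fun y => G y i) x) :=
    continuous_finsetSum _ fun i _ => continuous_dx (hG i) i
  have h := integral_divergence_of_hasFDerivAt_off_countable (n := 2) (E := ℝ) (0 : R3) 1
    (by intro i; simp) G (fun x => fderiv ℝ G x) ∅ countable_empty hG1.continuous.continuousOn
    (fun x _ => (hd x).hasFDerivAt)
    (by
      have : (fun x : R3 => ∑ i, (fderiv ℝ G x) (Pi.single i 1) i)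
          = fun x => ∑ i, dx i (fun y => G y i) x := by
        funext x; exact Finset.sum_congr rfl fun i _ => (e1 x i).symm
      rw [this]
      exact hcont.continuousOn.integrableOn_compact isCompact_Icc)
  have e2 : ∫ x in cube, ∑ i, dx i (fun y => G y i) x
      = ∫ x in Icc (0 : R3) 1, ∑ i, (fderiv ℝ G x) (Pi.single i 1) i := by
    congr 1
    funext x
    exact Finset.sum_congr rfl fun i _ => e1 x i
  rw [e2, h]
  refine Finset.sum_eq_zero fun i _ => ?_
  rw [sub_eq_zero]
  congr 1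
  funext x
  have h3 : (i.insertNth ((1 : R3) i) x : R3) = i.insertNth ((0 : R3) i) x + Pi.single i 1 := by
    funext j
    rcases Fin.eq_self_or_eq_succAbove i j with rfl | ⟨k, rfl⟩
    · simp
    · simp
  have := hper i (i.insertNth ((0 : R3) i) x) i
  rw [h3]
  exact this

theorem key_quad {a w z K' : ℝ} (ha : |a| ≤ K') : -(2 * (w * z * a)) ≤ K' * (w ^ 2 + z ^ 2) := by
  have h1 : |w * z * a| ≤ |w * z| * K' := by
    rw [abs_mul]; exact mul_le_mul_of_nonneg_left ha (abs_nonneg _)
  have h2 : 2 * |w * z| ≤ w ^ 2 + z ^ 2 := by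
    rw [abs_mul]; nlinarith [sq_nonneg (|w| - |z|), sq_abs w, sq_abs z]
  have h3 : 0 ≤ K' := (abs_nonneg a).trans ha
  have h4 := neg_abs_le (w * z * a)
  nlinarith

theorem alg_identity {ν V0 V1 V2 U0 U1 U2 u00 u01 u02 u10 u11 u12 u20 u21 u22
    v00 v01 v02 v10 v11 v12 v20 v21 v22 x00 x01 x02 x10 x11 x12 x20 x21 x22
    y00 y01 y02 y10 y11 y12 y20 y21 y22 p0 p1 p2 q0 q1 q2 P Q A0 A1 A2 B0 B1 B2 F0 F1 F2 : ℝ}
    (m0 : A0 + (U0 * u00 + U1 * u01 + U2 * u02) = -p0 + ν * (x00 + x01 + x02) + F0)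
    (m1 : A1 + (U0 * u10 + U1 * u11 + U2 * u12) = -p1 + ν * (x10 + x11 + x12) + F1)
    (m2 : A2 + (U0 * u20 + U1 * u21 + U2 * u22) = -p2 + ν * (x20 + x21 + x22) + F2)
    (n0 : B0 + (V0 * v00 + V1 * v01 + V2 * v02) = -q0 + ν * (y00 + y01 + y02) + F0)
    (n1 : B1 + (V0 * v10 + V1 * v11 + V2 * v12) = -q1 + ν * (y10 + y11 + y12) + F1)
    (n2 : B2 + (V0 * v20 + V1 * v21 + V2 * v22) = -q2 + ν * (y20 + y21 + y22) + F2)
    (d1 : u00 + u11 + u22 = 0) (d2 : v00 + v11 + v22 = 0) :
    2 * (V0 - U0) * (B0 - A0) + 2 * (V1 - U1) * (B1 - A1) + 2 * (V2 - U2) * (B2 - A2)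
    = ((-(v00 * ((V0 - U0) ^ 2 + (V1 - U1) ^ 2 + (V2 - U2) ^ 2)
          + V0 * (2 * (V0 - U0) * (v00 - u00) + 2 * (V1 - U1) * (v10 - u10)
            + 2 * (V2 - U2) * (v20 - u20)))
        - 2 * ((v00 - u00) * (Q - P) + (V0 - U0) * (q0 - p0))
        + 2 * ν * ((v00 - u00) ^ 2 + (V0 - U0) * (y00 - x00) + ((v10 - u10) ^ 2
          + (V1 - U1) * (y10 - x10)) + ((v20 - u20) ^ 2 + (V2 - U2) * (y20 - x20))))
      + (-(v11 * ((V0 - U0) ^ 2 + (V1 - U1) ^ 2 + (V2 - U2) ^ 2)
          + V1 * (2 * (V0 - U0) * (v01 - u01) + 2 * (V1 - U1) * (v11 - u11)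
            + 2 * (V2 - U2) * (v21 - u21)))
        - 2 * ((v11 - u11) * (Q - P) + (V1 - U1) * (q1 - p1))
        + 2 * ν * ((v01 - u01) ^ 2 + (V0 - U0) * (y01 - x01) + ((v11 - u11) ^ 2
          + (V1 - U1) * (y11 - x11)) + ((v21 - u21) ^ 2 + (V2 - U2) * (y21 - x21))))
      + (-(v22 * ((V0 - U0) ^ 2 + (V1 - U1) ^ 2 + (V2 - U2) ^ 2)
          + V2 * (2 * (V0 - U0) * (v02 - u02) + 2 * (V1 - U1) * (v12 - u12)
            + 2 * (V2 - U2) * (v22 - u22)))
        - 2 * ((v22 - u22) * (Q - P) + (V2 - U2) * (q2 - p2))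
        + 2 * ν * ((v02 - u02) ^ 2 + (V0 - U0) * (y02 - x02) + ((v12 - u12) ^ 2
          + (V1 - U1) * (y12 - x12)) + ((v22 - u22) ^ 2 + (V2 - U2) * (y22 - x22)))))
      - 2 * ν * ((v00 - u00) ^ 2 + (v01 - u01) ^ 2 + (v02 - u02) ^ 2
        + (v10 - u10) ^ 2 + (v11 - u11) ^ 2 + (v12 - u12) ^ 2
        + (v20 - u20) ^ 2 + (v21 - u21) ^ 2 + (v22 - u22) ^ 2)
      - (2 * ((V0 - U0) * (V0 - U0) * u00) + 2 * ((V0 - U0) * (V1 - U1) * u01)
        + 2 * ((V0 - U0) * (V2 - U2) * u02) + 2 * ((V1 - U1) * (V0 - U0) * u10)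
        + 2 * ((V1 - U1) * (V1 - U1) * u11) + 2 * ((V1 - U1) * (V2 - U2) * u12)
        + 2 * ((V2 - U2) * (V0 - U0) * u20) + 2 * ((V2 - U2) * (V1 - U1) * u21)
        + 2 * ((V2 - U2) * (V2 - U2) * u22)) := by
  linear_combination (-2 * (V0 - U0)) * m0 + (-2 * (V1 - U1)) * m1 + (-2 * (V2 - U2)) * m2
    + (2 * (V0 - U0)) * n0 + (2 * (V1 - U1)) * n1 + (2 * (V2 - U2)) * n2
    + ((V0 - U0) ^ 2 + (V1 - U1) ^ 2 + (V2 - U2) ^ 2 + 2 * (Q - P)) * d2
    - 2 * (Q - P) * d1

/-- Pointwise energy identity and the resulting inequality, at a fixed time. -/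
theorem energy_ineq {ν K : ℝ} (hν : 0 ≤ ν) {U V : R3 → R3} {P Q : R3 → ℝ} {A B F : R3 → R3}
    (hU : ContDiff ℝ 2 U) (hV : ContDiff ℝ 2 V) (hP : ContDiff ℝ 1 P) (hQ : ContDiff ℝ 1 Q)
    (pU : Periodic3 U) (pV : Periodic3 V) (pP : Periodic3 P) (pQ : Periodic3 Q)
    (cA : ∀ i, Continuous (fun x => A x i)) (cB : ∀ i, Continuous (fun x => B x i))
    (mU : ∀ x i, A x i + ∑ j, U x j * dx j (fun y => U y i) x
      = - dx i P x + ν * ∑ j, dx j (dx j (fun y => U y i)) x + F x i)
    (mV : ∀ x i, B x i + ∑ j, V x j * dx j (fun y => V y i) x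
      = - dx i Q x + ν * ∑ j, dx j (dx j (fun y => V y i)) x + F x i)
    (dU : ∀ x, ∑ i, dx i (fun y => U y i) x = 0) (dV : ∀ x, ∑ i, dx i (fun y => V y i) x = 0)
    (hK : ∀ x ∈ cube, ∀ i j, |dx j (fun y => U y i) x| ≤ K) :
    ∫ x in cube, ∑ i, 2 * (V x i - U x i) * (B x i - A x i)
      ≤ 6 * K * ∫ x in cube, ∑ i, (V x i - U x i) ^ 2 := by
  have hUi : ∀ i, ContDiff ℝ 2 (fun y => U y i) := contDiff_pi.1 hU
  have hVi : ∀ i, ContDiff ℝ 2 (fun y => V y i) := contDiff_pi.1 hV
  have dfU : ∀ i x, DifferentiableAt ℝ (fun y => U y i) x := fun i x =>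
    ((hUi i).differentiable (by norm_num)).differentiableAt
  have dfV : ∀ i x, DifferentiableAt ℝ (fun y => V y i) x := fun i x =>
    ((hVi i).differentiable (by norm_num)).differentiableAt
  have dfUx : ∀ i j x, DifferentiableAt ℝ (dx j (fun y => U y i)) x := fun i j x =>
    ((contDiff_dx (hUi i) j).differentiable (by norm_num)).differentiableAt
  have dfVx : ∀ i j x, DifferentiableAt ℝ (dx j (fun y => V y i)) x := fun i j x =>
    ((contDiff_dx (hVi i) j).differentiable (by norm_num)).differentiableAt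
  have dfP : ∀ x, DifferentiableAt ℝ P x := fun x => (hP.differentiable (by norm_num)).differentiableAt
  have dfQ : ∀ x, DifferentiableAt ℝ Q x := fun x => (hQ.differentiable (by norm_num)).differentiableAt
  -- the flux
  let G : R3 → R3 := fun x j =>
    -(V x j * ∑ i, (V x i - U x i) ^ 2) - 2 * ((V x j - U x j) * (Q x - P x))
      + 2 * ν * ∑ i, (V x i - U x i) * (dx j (fun y => V y i) x - dx j (fun y => U y i) x)
  have hG : ∀ j, ContDiff ℝ 1 (fun y => G y j) := by
    intro j
    have a1 : ∀ i, ContDiff ℝ 1 (fun y => V y i) := fun i => (hVi i).of_le (by norm_num)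
    have a2 : ∀ i, ContDiff ℝ 1 (fun y => U y i) := fun i => (hUi i).of_le (by norm_num)
    exact ((((a1 j).mul (ContDiff.sum fun i _ => ((a1 i).sub (a2 i)).pow 2)).neg).sub
      (contDiff_const.mul (((a1 j).sub (a2 j)).mul (hQ.sub hP)))).add
      (contDiff_const.mul (ContDiff.sum fun i _ => ((a1 i).sub (a2 i)).mul
        ((contDiff_dx (hVi i) j).sub (contDiff_dx (hUi i) j))))
  have hGper : ∀ j, Periodic3 (fun y => G y j) := by
    intro j x k
    have b1 : V (x + Pi.single k 1) = V x := pV x k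
    have b2 : U (x + Pi.single k 1) = U x := pU x k
    have b3 := pP x k
    have b4 := pQ x k
    have b5 : ∀ i, dx j (fun y => V y i) (x + Pi.single k 1) = dx j (fun y => V y i) x :=
      fun i => periodic_dx (g := fun y => V y i) (fun y l => congrFun (pV y l) i) j x k
    have b6 : ∀ i, dx j (fun y => U y i) (x + Pi.single k 1) = dx j (fun y => U y i) x :=
      fun i => periodic_dx (g := fun y => U y i) (fun y l => congrFun (pU y l) i) j x k
    simp only [G, b1, b2, b3, b4, b5, b6]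
  have hdiv := integral_div_eq_zero G hG hGper
  -- derivative of the flux
  have hGd : ∀ x j, dx j (fun y => G y j) x =
      -(dx j (fun y => V y j) x * ∑ i, (V x i - U x i) ^ 2
        + V x j * ∑ i, 2 * (V x i - U x i) * (dx j (fun y => V y i) x - dx j (fun y => U y i) x))
      - 2 * ((dx j (fun y => V y j) x - dx j (fun y => U y j) x) * (Q x - P x)
        + (V x j - U x j) * (dx j Q x - dx j P x))
      + 2 * ν * ∑ i, ((dx j (fun y => V y i) x - dx j (fun y => U y i) x) ^ 2
        + (V x i - U x i) * (dx j (dx j (fun y => V y i)) x - dx j (dx j (fun y => U y i)) x)) := by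
    intro x j
    have l1 := fun i => hasDerivAt_line (dfV i x) j
    have l2 := fun i => hasDerivAt_line (dfU i x) j
    have l3 := hasDerivAt_line (dfP x) j
    have l4 := hasDerivAt_line (dfQ x) j
    have l5 := fun i => hasDerivAt_line (dfVx i j x) j
    have l6 := fun i => hasDerivAt_line (dfUx i j x) j
    have hx0 : x + (0 : ℝ) • (Pi.single j 1 : R3) = x := by simp
    have s1 : HasDerivAt (fun t : ℝ => ∑ i, (V (x + t • (Pi.single j 1 : R3)) i
        - U (x + t • (Pi.single j 1 : R3)) i) ^ 2)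
        (∑ i, 2 * (V x i - U x i) * (dx j (fun y => V y i) x - dx j (fun y => U y i) x)) 0 := by
      apply HasDerivAt.fun_sum
      intro i _
      have := ((l1 i).fun_sub (l2 i)).fun_pow 2
      simp only [hx0] at this
      exact this.congr_deriv (by simp)
    have s2 : HasDerivAt (fun t : ℝ => ∑ i, (V (x + t • (Pi.single j 1 : R3)) i
        - U (x + t • (Pi.single j 1 : R3)) i) *
          (dx j (fun y => V y i) (x + t • (Pi.single j 1 : R3))
            - dx j (fun y => U y i) (x + t • (Pi.single j 1 : R3))))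
        (∑ i, ((dx j (fun y => V y i) x - dx j (fun y => U y i) x) ^ 2
        + (V x i - U x i) * (dx j (dx j (fun y => V y i)) x - dx j (dx j (fun y => U y i)) x)))
        0 := by
      apply HasDerivAt.fun_sum
      intro i _
      have := ((l1 i).fun_sub (l2 i)).fun_mul ((l5 i).fun_sub (l6 i))
      simp only [hx0] at this
      exact this.congr_deriv (by ring)
    have s3 := ((l1 j).fun_mul s1).fun_neg
    have s4 := (((l1 j).fun_sub (l2 j)).fun_mul (l4.fun_sub l3)).const_mul 2
    have s5 := s2.const_mul (2 * ν)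
    have s6 := (s3.fun_sub s4).fun_add s5
    simp only [hx0] at s6
    have hline : HasDerivAt (fun t : ℝ => G (x + t • (Pi.single j 1 : R3)) j)
        (dx j (fun y => G y j) x) 0 :=
      hasDerivAt_line (((hG j).differentiable (by norm_num)).differentiableAt) j
    exact hline.unique s6
  -- pointwise inequality
  have hpt : ∀ x ∈ cube, ∑ i, 2 * (V x i - U x i) * (B x i - A x i)
      ≤ (∑ j, dx j (fun y => G y j) x) + 6 * K * ∑ i, (V x i - U x i) ^ 2 := by
    intro x hx
    have m0 := mU x 0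
    have m1 := mU x 1
    have m2 := mU x 2
    have n0 := mV x 0
    have n1 := mV x 1
    have n2 := mV x 2
    have d1 := dU x
    have d2 := dV x
    simp only [hGd]
    simp only [Fin.sum_univ_three] at m0 m1 m2 n0 n1 n2 d1 d2 ⊢
    have k := hK x hx
    have hid := alg_identity (P := P x) (Q := Q x) m0 m1 m2 n0 n1 n2 d1 d2
    have f00 := key_quad (w := V x 0 - U x 0) (z := V x 0 - U x 0) (k 0 0)
    have f01 := key_quad (w := V x 0 - U x 0) (z := V x 1 - U x 1) (k 0 1)
    have f02 := key_quad (w := V x 0 - U x 0) (z := V x 2 - U x 2) (k 0 2)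
    have f10 := key_quad (w := V x 1 - U x 1) (z := V x 0 - U x 0) (k 1 0)
    have f11 := key_quad (w := V x 1 - U x 1) (z := V x 1 - U x 1) (k 1 1)
    have f12 := key_quad (w := V x 1 - U x 1) (z := V x 2 - U x 2) (k 1 2)
    have f20 := key_quad (w := V x 2 - U x 2) (z := V x 0 - U x 0) (k 2 0)
    have f21 := key_quad (w := V x 2 - U x 2) (z := V x 1 - U x 1) (k 2 1)
    have f22 := key_quad (w := V x 2 - U x 2) (z := V x 2 - U x 2) (k 2 2)
    have hsq : 0 ≤ 2 * ν * ((dx 0 (fun y => V y 0) x - dx 0 (fun y => U y 0) x) ^ 2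
        + (dx 1 (fun y => V y 0) x - dx 1 (fun y => U y 0) x) ^ 2
        + (dx 2 (fun y => V y 0) x - dx 2 (fun y => U y 0) x) ^ 2
        + (dx 0 (fun y => V y 1) x - dx 0 (fun y => U y 1) x) ^ 2
        + (dx 1 (fun y => V y 1) x - dx 1 (fun y => U y 1) x) ^ 2
        + (dx 2 (fun y => V y 1) x - dx 2 (fun y => U y 1) x) ^ 2
        + (dx 0 (fun y => V y 2) x - dx 0 (fun y => U y 2) x) ^ 2
        + (dx 1 (fun y => V y 2) x - dx 1 (fun y => U y 2) x) ^ 2
        + (dx 2 (fun y => V y 2) x - dx 2 (fun y => U y 2) x) ^ 2) := by positivity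
    rw [hid]
    linarith
  have cU : ∀ i, Continuous (fun x => U x i) := fun i => (hUi i).continuous
  have cV : ∀ i, Continuous (fun x => V x i) := fun i => (hVi i).continuous
  have i1 : IntegrableOn (fun x => ∑ i, 2 * (V x i - U x i) * (B x i - A x i)) cube := by
    apply Continuous.continuousOn _ |>.integrableOn_compact isCompact_Icc
    exact continuous_finsetSum _ fun i _ =>
      (continuous_const.mul ((cV i).sub (cU i))).mul ((cB i).sub (cA i))
  have i2 : IntegrableOn (fun x => ∑ j, dx j (fun y => G y j) x) cube := by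
    apply Continuous.continuousOn _ |>.integrableOn_compact isCompact_Icc
    exact continuous_finsetSum _ fun i _ => continuous_dx (hG i) i
  have i3 : IntegrableOn (fun x => 6 * K * ∑ i, (V x i - U x i) ^ 2) cube := by
    apply Continuous.continuousOn _ |>.integrableOn_compact isCompact_Icc
    exact continuous_const.mul (continuous_finsetSum _ fun i _ => ((cV i).sub (cU i)).pow 2)
  calc ∫ x in cube, ∑ i, 2 * (V x i - U x i) * (B x i - A x i)
      ≤ ∫ x in cube, ((∑ j, dx j (fun y => G y j) x) + 6 * K * ∑ i, (V x i - U x i) ^ 2) :=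
        setIntegral_mono_on i1 (i2.add i3) measurableSet_Icc hpt
    _ = (∫ x in cube, ∑ j, dx j (fun y => G y j) x)
        + ∫ x in cube, 6 * K * ∑ i, (V x i - U x i) ^ 2 := integral_add i2 i3
    _ = 6 * K * ∫ x in cube, ∑ i, (V x i - U x i) ^ 2 := by
        rw [hdiv, zero_add, integral_const_mul]

end Vale.Agent.P113
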