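import Vale.Agent.P113.Effective

/-!
The velocity field is a global smooth solution; the trajectory of the origin.
-/

open scoped ContDiff
open Set

namespace Vale.Agent.P113

theorem deriv_h0_eq : deriv h0 = iteratedDeriv 1 h0 := iteratedDeriv_one.symm
theorem deriv_hh_eq : deriv hh = iteratedDeriv 1 hh := iteratedDeriv_one.symm
theorem deriv_th_eq : deriv th = iteratedDeriv 1 th := iteratedDeriv_one.symm

theorem iteratedDeriv_hh_add_one (k : ℕ) (s : ℝ) :
    iteratedDeriv k hh (s + 1) = iteratedDeriv k hh s := by
  rw [iteratedDeriv_hh, iteratedDeriv_hh, Int.fract_add_one]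

/-! ### Smoothness -/

theorem cd_fst {F : ℝ → ℝ} (hF : ContDiff ℝ ∞ F) : ContDiff ℝ ∞ (fun z : ℝ × R3 => F z.1) :=
  hF.comp contDiff_fst

theorem cd_coord : ContDiff ℝ ∞ (fun y : R3 => y 0) := contDiff_apply ℝ ℝ (0 : Fin 3)

theorem cd_snd {F : ℝ → ℝ} (hF : ContDiff ℝ ∞ F) :
    ContDiff ℝ ∞ (fun z : ℝ × R3 => F (z.2 0)) :=
  hF.comp (cd_coord.comp contDiff_snd)

theorem vel_contDiff (x : Machine × List ℕ) :
    ContDiff ℝ ∞ (fun z : ℝ × R3 => vel x z.1 z.2) := by
  rw [contDiff_pi]
  intro i
  fin_cases i
  · exact contDiff_const.mul (cd_fst h0_contDiff)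
  · exact (cd_fst th_contDiff).mul (cd_snd hh_contDiff)
  · exact contDiff_const

theorem force_contDiff (ν : ℝ) (x : Machine × List ℕ) :
    ContDiff ℝ ∞ (fun z : ℝ × R3 => force ν x z.1 z.2) := by
  rw [contDiff_pi]
  intro i
  fin_cases i
  · exact contDiff_const.mul (cd_fst (deriv_contDiff h0_contDiff))
  · exact ((cd_fst (deriv_contDiff th_contDiff)).mul (cd_snd hh_contDiff)).sub
      ((contDiff_const.mul (cd_fst th_contDiff)).mul
        (cd_snd (iteratedDeriv_contDiff hh_contDiff 2)))
  · exact contDiff_const

theorem add_single_zero (y : R3) (i : Fin 3) :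
    (y + Pi.single i 1 : R3) 0 = y 0 ∨ (y + Pi.single i 1 : R3) 0 = y 0 + 1 := by
  by_cases h : i = 0
  · subst h; right; simp
  · left; simp [Ne.symm h]

theorem vel_periodic (x : Machine × List ℕ) (t : ℝ) : Periodic3 (vel x t) := by
  intro y i
  simp only [vel]
  rcases add_single_zero y i with h | h
  · rw [h]
  · rw [h, hh_add_one]

theorem force_periodic (ν : ℝ) (x : Machine × List ℕ) (t : ℝ) : Periodic3 (force ν x t) := by
  intro y i
  simp only [force]
  rcases add_single_zero y i with h | h
  · rw [h]
  · rw [h, hh_add_one, iteratedDeriv_hh_add_one]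

theorem isSmoothForce (ν : ℝ) (x : Machine × List ℕ) : IsSmoothForce (force ν x) :=
  ⟨fun t _ => force_periodic ν x t, (force_contDiff ν x).contDiffOn⟩

/-- For `t ≥ 1` the force does not depend on the machine and the input and has period `1`. -/
theorem force_of_ge (ν : ℝ) (x : Machine × List ℕ) {t : ℝ} (ht : 1 ≤ t) (y : R3) :
    force ν x t y = ![0, deriv hh t * hh (y 0) - ν * hh t * iteratedDeriv 2 hh (y 0), 0] := by
  have h1 : deriv h0 t = 0 := by rw [deriv_h0_eq, iteratedDeriv_h0_of_ge ht]
  have h2 : deriv th t = deriv hh t := by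
    rw [deriv_th_eq, deriv_hh_eq, iteratedDeriv_th_of_ge ht]
  simp only [force, h1, h2, th_of_ge ht, mul_zero]

/-- The time-periodic force for `t ≥ 1`. -/
noncomputable def perForce (ν : ℝ) (t : ℝ) (y : R3) : R3 :=
  ![0, deriv hh t * hh (y 0) - ν * hh t * iteratedDeriv 2 hh (y 0), 0]

theorem perForce_periodic (ν t : ℝ) : perForce ν (t + 1) = perForce ν t := by
  funext y
  have h2 : deriv hh (t + 1) = deriv hh t := by
    rw [deriv_hh_eq, iteratedDeriv_hh_add_one]
  simp only [perForce, h2, hh_add_one]

/-! ### Derivatives of the velocity field -/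

theorem h0_mul_th {t : ℝ} (ht : 0 ≤ t) : h0 t * th t = 0 := by
  rcases lt_or_ge t 1 with h | h
  · rw [th_of_lt ht h, mul_zero]
  · rw [h0_of_ge h, zero_mul]

/-- partial derivatives of the components of `vel` -/
theorem dx_vel (x : Machine × List ℕ) (t : ℝ) (i j : Fin 3) :
    dx j (fun y => vel x t y i)
      = if i = 1 ∧ j = 0 then (fun y => th t * iteratedDeriv 1 hh (y 0)) else fun _ => 0 := by
  have hne : ∀ c : ℝ, dx j (fun _ : R3 => c) = fun _ => 0 := by
    intro c; funext y; simp [dx, lineDeriv]
  fin_cases i
  · simpa [vel] using hne _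
  · have e : (fun y : R3 => vel x t y 1) = fun y => (fun r => th t * hh r) (y 0) := by
      funext y; simp [vel]
    simp only [Fin.mk_one, Fin.isValue, true_and]
    rw [e]
    by_cases hj : j = 0
    · subst hj
      refine (dx_zero_comp (fun r => th t * hh r)).trans ?_
      simp only [if_true]
      funext y
      rw [← deriv_hh_eq, deriv_const_mul _ (hh_contDiff.differentiable (by simp)).differentiableAt]
    · refine (dx_ne_comp (fun r => th t * hh r) hj).trans ?_
      rw [if_neg hj]
  · simpa [vel] using hne _

theorem dxx_vel (x : Machine × List ℕ) (t : ℝ) (i j k : Fin 3) :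
    dx k (dx j (fun y => vel x t y i))
      = if (i = 1 ∧ j = 0) ∧ k = 0 then (fun y => th t * iteratedDeriv 2 hh (y 0))
        else fun _ => 0 := by
  rw [dx_vel]
  by_cases h : i = 1 ∧ j = 0
  · simp only [h, and_self, if_true, true_and]
    have e : (fun y : R3 => th t * iteratedDeriv 1 hh (y 0))
        = fun y => (fun r => th t * iteratedDeriv 1 hh r) (y 0) := rfl
    rw [e]
    by_cases hk : k = 0
    · subst hk
      refine (dx_zero_comp (fun r => th t * iteratedDeriv 1 hh r)).trans ?_
      simp only [if_true]
      funext y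
      rw [deriv_const_mul _ ((iteratedDeriv_contDiff hh_contDiff 1).differentiable
        (by simp)).differentiableAt, ← iteratedDeriv_succ]
    · refine (dx_ne_comp (fun r => th t * iteratedDeriv 1 hh r) hk).trans ?_
      rw [if_neg hk]
  · simp only [h, if_false, false_and]
    exact dx_const_zero k

theorem hasDerivAt_vel (x : Machine × List ℕ) (t : ℝ) (y : R3) (i : Fin 3) :
    HasDerivAt (fun s => vel x s y i) (![x0 x * deriv h0 t, deriv th t * hh (y 0), 0] i) t := by
  fin_cases i
  · exact ((h0_contDiff.differentiable (by simp)).differentiableAt.hasDerivAt).const_mul _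
  · exact ((th_contDiff.differentiable (by simp)).differentiableAt.hasDerivAt).mul_const _
  · exact hasDerivAt_const _ _

theorem derivWithin_vel (x : Machine × List ℕ) {T t : ℝ} (hT : 0 < T) (ht : t ∈ Icc 0 T) (y : R3)
    (i : Fin 3) :
    derivWithin (fun s => vel x s y i) (Icc 0 T) t
      = ![x0 x * deriv h0 t, deriv th t * hh (y 0), 0] i :=
  (hasDerivAt_vel x t y i).hasDerivWithinAt.derivWithin (uniqueDiffOn_Icc hT t ht)

theorem isClassicalSolution (ν : ℝ) (x : Machine × List ℕ) {T : ℝ} (hT : 0 < T) :
    IsClassicalSolution ν T (force ν x) (vel x) (fun _ _ => 0) := by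
  have hc1 : ∀ {F : ℝ → ℝ}, ContDiff ℝ ∞ F → Continuous F := fun h => h.continuous
  have hz : ∀ j : Fin 3, ∀ y : R3, dx j (fun _ : R3 => (0 : ℝ)) y = 0 := by
    intro j y; rw [dx_const_zero]
  refine
    { periodic_u := fun t _ => vel_periodic x t
      periodic_p := fun t _ y i => rfl
      contDiff_u := fun t _ => ?_
      contDiff_p := fun t _ => contDiff_const
      diff_time := fun t _ y i => (hasDerivAt_vel x t y i).differentiableAt.differentiableWithinAt
      cont_u := fun i => ?_
      cont_dt := fun i => ?_
      cont_dx := fun i j => ?_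
      cont_dxx := fun i j k => ?_
      cont_p := continuousOn_const
      cont_dp := fun j => ?_
      mean_p := fun t _ => by simp
      momentum := fun t ht y i => ?_
      div_free := fun t ht y => ?_
      initial := fun y => ?_ }
  · have h1 : ContDiff ℝ ∞ (vel x t) := (vel_contDiff x).comp (contDiff_const.prodMk contDiff_id)
    exact_mod_cast contDiff_infty.1 h1 2
  · exact ((continuous_apply i).comp (vel_contDiff x).continuous).continuousOn
  · have h : ContinuousOn (fun z : ℝ × R3 =>
        ![x0 x * deriv h0 z.1, deriv th z.1 * hh (z.2 0), 0] i) (Icc 0 T ×ˢ univ) := by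
      fin_cases i
      · exact (continuous_const.mul (cd_fst (deriv_contDiff h0_contDiff)).continuous).continuousOn
      · exact (((cd_fst (deriv_contDiff th_contDiff)).continuous).mul
          (cd_snd hh_contDiff).continuous).continuousOn
      · exact continuousOn_const
    refine h.congr fun z hz => ?_
    exact derivWithin_vel x hT hz.1 z.2 i
  · simp only [dx_vel]
    by_cases h : i = 1 ∧ j = 0
    · simp only [h, and_self, if_true]
      exact (((cd_fst th_contDiff).continuous).mul
        (cd_snd (iteratedDeriv_contDiff hh_contDiff 1)).continuous).continuousOn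
    · simp only [h, if_false]
      exact continuousOn_const
  · simp only [dxx_vel]
    by_cases h : (i = 1 ∧ j = 0) ∧ k = 0
    · simp only [h, and_self, if_true]
      exact (((cd_fst th_contDiff).continuous).mul
        (cd_snd (iteratedDeriv_contDiff hh_contDiff 2)).continuous).continuousOn
    · simp only [h, if_false]
      exact continuousOn_const
  · simp only [hz]
    exact continuousOn_const
  · rw [derivWithin_vel x hT ht]
    simp only [dxx_vel]
    simp only [dx_vel, hz]
    have hh1 := h0_mul_th ht.1
    fin_cases i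
    · simp [force]
    · simp only [Fin.mk_one, Fin.isValue, true_and, Matrix.cons_val_one, Matrix.cons_val_zero,
        Fin.sum_univ_three, if_true, force, vel]
      simp only [Fin.isValue, one_ne_zero, if_false, Fin.reduceEq, mul_zero, add_zero]
      simp
      linear_combination (x0 x * deriv hh (y 0)) * hh1
    · simp [force]
  · simp only [dx_vel]
    simp [Fin.sum_univ_three]
  · funext i
    fin_cases i
    · simp [vel, h0_of_le le_rfl]
    · simp [vel, th_of_lt le_rfl one_pos]
    · simp [vel]

theorem isSmoothSolution (ν : ℝ) (x : Machine × List ℕ) :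
    IsSmoothSolution ν (force ν x) (vel x) (fun _ _ => 0) :=
  ⟨(vel_contDiff x).contDiffOn, contDiff_const.contDiffOn,
    fun _ hT => isClassicalSolution ν x hT⟩

end Vale.Agent.P113
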