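import Vale.Agent.P113.Defs
import Vale.Agent.P113.CReal

/-!
Computable simulation of machines, and the computable real number `x0`.
-/

namespace Vale.Agent.P113

open Encodable

section

variable {α β γ σ : Type*} [Primcodable α] [Primcodable β] [Primcodable γ] [Primcodable σ]

theorem c_option_casesOn {o : α → Option β} {f : α → σ} {g : α × β → σ} (ho : Computable o)
    (hf : Computable f) (hg : Computable g) :
    Computable (fun a => Option.casesOn (motive := fun _ => σ) (o a) (f a) (fun b => g (a, b))) :=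
  Computable.option_casesOn ho hf (g := fun a b => g (a, b)) (Computable₂.mk (by fun_prop))

@[fun_prop] theorem c_option_getD {o : α → Option β} {f : α → β} (ho : Computable o)
    (hf : Computable f) : Computable (fun a => (o a).getD (f a)) :=
  Computable.option_getD ho hf

@[fun_prop] theorem c_cons {f : α → β} {g : α → List β} (hf : Computable f) (hg : Computable g) :
    Computable (fun a => f a :: g a) := Computable.list_cons.comp hf hg

@[fun_prop] theorem c_list_getD {f : α → List ℕ} {g : α → ℕ} (hf : Computable f)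
    (hg : Computable g) : Computable (fun a => (f a).getD (g a) 0) :=
  (Primrec.list_getD (0 : ℕ)).to_comp.comp hf hg

@[fun_prop] theorem c_lookup_int {f : α → List (ℤ × β)} {g : α → ℤ} (hf : Computable f)
    (hg : Computable g) : Computable (fun a => (f a).lookup (g a)) :=
  (Primrec.listLookup (α := ℤ) (β := β)).to_comp.comp hg hf

theorem beq_pair_eq : (instBEqProd : BEq (ℕ × ℕ)) = instBEqOfDecidableEq := by
  have h : ∀ a b : ℕ × ℕ, (instBEqProd : BEq (ℕ × ℕ)).beq a b
      = (instBEqOfDecidableEq : BEq (ℕ × ℕ)).beq a b := by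
    intro a b
    by_cases hab : a = b
    · subst hab; simp [BEq.beq, decide_eq_true]
    · have h1 : ¬ ((a == b) = true) := by simpa using hab
      have h2 : (instBEqOfDecidableEq : BEq (ℕ × ℕ)).beq a b = decide (a = b) := rfl
      rw [h2]
      simp only [hab, decide_false]
      simpa using h1
  have e : ∀ (x y : BEq (ℕ × ℕ)), (∀ a b, x.beq a b = y.beq a b) → x = y := by
    intro x y hxy
    cases x; cases y
    congr 1
    funext a b
    exact hxy a b
  exact e _ _ h

theorem lookup_pair_eq {β : Type*} (k : ℕ × ℕ) (l : List ((ℕ × ℕ) × β)) :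
    @List.lookup _ _ instBEqProd k l = @List.lookup _ _ instBEqOfDecidableEq k l := by
  rw [beq_pair_eq]

@[fun_prop] theorem c_lookup_pair {f : α → List ((ℕ × ℕ) × β)} {g : α → ℕ × ℕ}
    (hf : Computable f) (hg : Computable g) : Computable (fun a => (f a).lookup (g a)) :=
  ((Primrec.listLookup (α := ℕ × ℕ) (β := β)).to_comp.comp hg hf).of_eq
    fun _ => (lookup_pair_eq _ _).symm

theorem c_mem {f : α → List ℕ} {g : α → ℕ} (hf : Computable f) (hg : Computable g) :
    Computable (fun a => decide (g a ∈ f a)) := by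
  have h := (PrimrecRel.exists_mem_list (Primrec.eq (α := ℕ))).decide.to_comp.comp hf hg
  exact h.of_eq fun a => by simp

end

/-- The initial contents of the tape. -/
def inp (w : List ℕ) (z : ℤ) : ℕ := if 0 ≤ z then w.getD z.toNat 0 else 0

/-- Configurations represented by a log of all write operations. -/
abbrev RConfig : Type := ℕ × ℤ × List (ℤ × ℕ)

def interp (w : List ℕ) (r : RConfig) : Config :=
  ⟨r.1, r.2.1, fun z => (r.2.2.lookup z).getD (inp w z)⟩

def applyInstr (r : RConfig) (i : ℕ × ℕ × Option Bool) : RConfig :=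
  (i.1, r.2.1 + shift i.2.2, (r.2.1, i.2.1) :: r.2.2)

def rstep (x : Machine × List ℕ) (r : RConfig) : RConfig :=
  Option.casesOn (motive := fun _ => RConfig)
    (x.1.2.2.lookup (r.1, (r.2.2.lookup r.2.1).getD (inp x.2 r.2.1)))
    r (fun i => applyInstr r i)

theorem interp_rstep (x : Machine × List ℕ) (r : RConfig) :
    interp x.2 (rstep x r) = x.1.step (interp x.2 r) := by
  unfold rstep Machine.step
  have hh : (interp x.2 r).state = r.1 := rfl
  have hh2 : (interp x.2 r).tape (interp x.2 r).head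
      = (r.2.2.lookup r.2.1).getD (inp x.2 r.2.1) := rfl
  rw [hh, hh2]
  rcases x.1.2.2.lookup (r.1, (r.2.2.lookup r.2.1).getD (inp x.2 r.2.1)) with _ | ⟨q, a, m⟩
  · rfl
  · simp only [applyInstr, interp, Config.mk.injEq, true_and]
    funext z
    by_cases hz : z = r.2.1
    · subst hz; simp [Function.update_self]
    · rw [Function.update_of_ne hz]
      have : ((r.2.1, a) :: r.2.2).lookup z = r.2.2.lookup z := by
        have hb : (z == r.2.1) = false := by simpa using hz
        simp [List.lookup, hb]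
      rw [this]

theorem c_inp {α : Type*} [Primcodable α] {f : α → List ℕ} {g : α → ℤ} (hf : Computable f)
    (hg : Computable g) : Computable (fun a => inp (f a) (g a)) := by
  have h1 : Computable (fun a => (f a).getD (g a).toNat 0) := by fun_prop
  exact c_ite (c := fun a => 0 ≤ g a) (f := fun a => (f a).getD (g a).toNat 0) (g := fun _ => 0)
    (c_int_nonneg hg) h1 (c_const 0)

theorem c_shift {α : Type*} [Primcodable α] {f : α → ℤ} {g : α → Option Bool}
    (hf : Computable f) (hg : Computable g) : Computable (fun a => f a + shift (g a)) := by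
  have h1 : Computable (fun p : α × Bool => if p.2 = true then f p.1 + 1 else f p.1 + (-1)) := by
    refine c_ite ?_ (c_int_succ (by fun_prop)) (c_int_pred (by fun_prop))
    exact (Computable.snd (α := α) (β := Bool)).of_eq fun p => by simp
  refine (c_option_casesOn hg hf h1).of_eq fun a => ?_
  rcases g a with _ | _ | _ <;> simp [shift]

theorem c_applyInstr {α : Type*} [Primcodable α] {f : α → RConfig} {g : α → ℕ × ℕ × Option Bool}
    (hf : Computable f) (hg : Computable g) : Computable (fun a => applyInstr (f a) (g a)) := by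
  have h1 : Computable (fun a => (g a).1) := c_fst hg
  have h2 : Computable (fun a => (f a).2.1 + shift (g a).2.2) :=
    c_shift (c_fst (c_snd hf)) (c_snd (c_snd hg))
  have h3 : Computable (fun a => ((f a).2.1, (g a).2.1) :: (f a).2.2) :=
    c_cons (c_pair (c_fst (c_snd hf)) (c_fst (c_snd hg))) (c_snd (c_snd hf))
  exact c_pair h1 (c_pair h2 h3)

theorem c_rstep : Computable (fun p : (Machine × List ℕ) × RConfig => rstep p.1 p.2) := by
  have hi : Computable (fun p : (Machine × List ℕ) × RConfig => inp p.1.2 p.2.2.1) :=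
    c_inp (by fun_prop) (by fun_prop)
  have hl : Computable (fun p : (Machine × List ℕ) × RConfig => p.2.2.2.lookup p.2.2.1) :=
    c_lookup_int (by fun_prop) (by fun_prop)
  have h1 : Computable (fun p : (Machine × List ℕ) × RConfig =>
      (p.2.1, (p.2.2.2.lookup p.2.2.1).getD (inp p.1.2 p.2.2.1))) :=
    c_pair (by fun_prop) (c_option_getD hl hi)
  have h2 : Computable (fun p : (Machine × List ℕ) × RConfig =>
      p.1.1.2.2.lookup (p.2.1, (p.2.2.2.lookup p.2.2.1).getD (inp p.1.2 p.2.2.1))) :=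
    c_lookup_pair (f := fun p : (Machine × List ℕ) × RConfig => p.1.1.2.2) (by fun_prop) h1
  exact c_option_casesOn (f := fun p : (Machine × List ℕ) × RConfig => p.2)
    (g := fun q : ((Machine × List ℕ) × RConfig) × (ℕ × ℕ × Option Bool) =>
    applyInstr q.1.2 q.2) h2 (by fun_prop) (c_applyInstr (by fun_prop) (by fun_prop))

/-- The run of the machine, in the representation by logs. -/
def rrun (x : Machine × List ℕ) (n : ℕ) : RConfig :=
  Nat.rec (motive := fun _ => RConfig) (x.1.1, 0, []) (fun _ r => rstep x r) n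

theorem interp_rrun (x : Machine × List ℕ) (n : ℕ) :
    interp x.2 (rrun x n) = x.1.step^[n] (x.1.start x.2) := by
  induction n with
  | zero => rfl
  | succ n ih =>
    rw [Function.iterate_succ_apply', ← ih, ← interp_rstep]
    rfl

theorem c_rrun : Computable (fun p : (Machine × List ℕ) × ℕ => rrun p.1 p.2) := by
  unfold rrun
  exact c_rec (f := fun p : (Machine × List ℕ) × ℕ => p.2)
    (g := fun p : (Machine × List ℕ) × ℕ => ((p.1.1.1, 0, []) : RConfig))
    (h := fun q : ((Machine × List ℕ) × ℕ) × ℕ × RConfig => rstep q.1.1 q.2.2)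
    (by fun_prop) (by fun_prop)
    (c_comp (f := fun p : (Machine × List ℕ) × RConfig => rstep p.1 p.2)
      (g := fun q : ((Machine × List ℕ) × ℕ) × ℕ × RConfig => (q.1.1, q.2.2)) c_rstep
      (by fun_prop))

/-- the machine is in a halting state at time `n` -/
def haltedAt (x : Machine × List ℕ) (n : ℕ) : Prop :=
  (x.1.step^[n] (x.1.start x.2)).state ∈ x.1.2.1

instance (x : Machine × List ℕ) (n : ℕ) : Decidable (haltedAt x n) := by
  unfold haltedAt; infer_instance

theorem c_haltedAt : Computable (fun p : (Machine × List ℕ) × ℕ => decide (haltedAt p.1 p.2)) := by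
  have h1 := c_rrun
  have h2 : Computable (fun p : (Machine × List ℕ) × ℕ =>
      decide ((rrun p.1 p.2).1 ∈ p.1.1.2.1)) := c_mem (by fun_prop) (by fun_prop)
  refine h2.of_eq fun p => ?_
  have : (rrun p.1 p.2).1 = (p.1.1.step^[p.2] (p.1.1.start p.1.2)).state := by
    rw [← interp_rrun]; rfl
  rw [this]
  rfl

/-- Limits. -/
theorem CR.limit {α : Type*} [Primcodable α] {f : α → ℝ} {s : α × ℕ → ℝ} (hs : CR s)
    (h : ∀ a n, |f a - s (a, n)| ≤ 1 / 2 ^ n) : CR f := by
  obtain ⟨g, hg, hgs⟩ := hs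
  refine ⟨fun p => g ((p.1, p.2 + 1), p.2 + 1), by fun_prop, fun a n => ?_⟩
  calc |f a - tv (g ((a, n + 1), n + 1))|
      ≤ |f a - s (a, n + 1)| + |s (a, n + 1) - tv (g ((a, n + 1), n + 1))| := abs_sub_le _ _ _
    _ ≤ 1 / 2 ^ (n + 1) + 1 / 2 ^ (n + 1) := add_le_add (h a (n + 1)) (hgs (a, n + 1) (n + 1))
    _ = 1 / 2 ^ n := by field_simp; ring

/-- The real number which is positive iff the machine halts. -/
noncomputable def x0 (x : Machine × List ℕ) : ℝ :=
  ∑' n : ℕ, if haltedAt x n then (1 / 2 : ℝ) ^ (n + 2) else 0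

theorem x0_term_nonneg (x : Machine × List ℕ) (n : ℕ) :
    0 ≤ (if haltedAt x n then (1 / 2 : ℝ) ^ (n + 2) else 0) := by
  split_ifs <;> positivity

theorem x0_term_le (x : Machine × List ℕ) (n : ℕ) :
    (if haltedAt x n then (1 / 2 : ℝ) ^ (n + 2) else 0) ≤ (1 / 2 : ℝ) ^ (n + 2) := by
  split_ifs
  · exact le_rfl
  · positivity

theorem summable_geo (k : ℕ) : Summable (fun n : ℕ => (1 / 2 : ℝ) ^ (n + k)) :=
  (summable_nat_add_iff k).2 (summable_geometric_of_lt_one (by norm_num) (by norm_num))

theorem tsum_geo (k : ℕ) : ∑' n : ℕ, (1 / 2 : ℝ) ^ (n + k) = 2 * (1 / 2 : ℝ) ^ k := by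
  simp only [pow_add]
  rw [tsum_mul_right, tsum_geometric_of_lt_one (by norm_num) (by norm_num)]
  norm_num

theorem summable_x0 (x : Machine × List ℕ) :
    Summable (fun n : ℕ => if haltedAt x n then (1 / 2 : ℝ) ^ (n + 2) else 0) :=
  Summable.of_nonneg_of_le (x0_term_nonneg x) (x0_term_le x) (summable_geo 2)

theorem x0_nonneg (x : Machine × List ℕ) : 0 ≤ x0 x := tsum_nonneg (x0_term_nonneg x)

theorem x0_le (x : Machine × List ℕ) : x0 x ≤ 1 / 2 := by
  unfold x0
  calc _ ≤ ∑' n : ℕ, (1 / 2 : ℝ) ^ (n + 2) :=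
        (summable_x0 x).tsum_le_tsum (x0_term_le x) (summable_geo 2)
    _ = 1 / 2 := by rw [tsum_geo]; norm_num

theorem x0_pos_iff (x : Machine × List ℕ) : 0 < x0 x ↔ x.1.Halts x.2 := by
  constructor
  · intro h
    by_contra hn
    have : ∀ n, ¬ haltedAt x n := fun n hh => hn ⟨n, hh⟩
    have h0 : x0 x = 0 := by
      unfold x0
      simp [this]
    linarith
  · rintro ⟨n, hn⟩
    have hh : haltedAt x n := hn
    exact (summable_x0 x).tsum_pos (x0_term_nonneg x) n (by simp [hh])

/-- partial sums of the series defining `x0` -/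
noncomputable def x0s (p : (Machine × List ℕ) × ℕ) : ℝ :=
  ∑ k ∈ Finset.range p.2, if haltedAt p.1 k then (1 / 2 : ℝ) ^ (k + 2) else 0

noncomputable def x0t (p : ((Machine × List ℕ) × ℕ) × ℕ) : ℝ :=
  if haltedAt p.1.1 p.2 then (1 / 2 : ℝ) ^ (p.2 + 2) else 0

theorem CR_x0t : CR x0t := by
  have hd : Computable (fun q : ((Machine × List ℕ) × ℕ) × ℕ =>
      decide (haltedAt q.1.1 q.2)) :=
    c_comp (f := fun p : (Machine × List ℕ) × ℕ => decide (haltedAt p.1 p.2))
    (g := fun q : ((Machine × List ℕ) × ℕ) × ℕ => (q.1.1, q.2)) c_haltedAt (by fun_prop)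
  have hp : CR (fun q : ((Machine × List ℕ) × ℕ) × ℕ => (1 / 2 : ℝ) ^ (q.2 + 2)) :=
    (CR.ratio_pow (p := fun _ => 1) (q := fun _ => 2)
      (e := fun p : ((Machine × List ℕ) × ℕ) × ℕ => p.2 + 2) (by fun_prop) (by fun_prop)
      (by fun_prop)).of_eq fun a => by norm_num
  exact CR.ite (c := fun q : ((Machine × List ℕ) × ℕ) × ℕ => haltedAt q.1.1 q.2)
    (f := fun q : ((Machine × List ℕ) × ℕ) × ℕ => (1 / 2 : ℝ) ^ (q.2 + 2))
    (f' := fun _ => 0) hd hp CR.zero

theorem CR_x0s : CR x0s :=
  CR.sum (α := (Machine × List ℕ) × ℕ) (f := x0t) (N := fun p => p.2) CR_x0t (by fun_prop)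

theorem tail_bound (a : ℕ → ℝ) (h0 : ∀ n, 0 ≤ a n) (h1 : ∀ n, a n ≤ (1 / 2 : ℝ) ^ (n + 2))
    (n : ℕ) : |∑' k, a k - ∑ k ∈ Finset.range n, a k| ≤ 1 / 2 ^ n := by
  have hsum : Summable a := Summable.of_nonneg_of_le h0 h1 (summable_geo 2)
  have h3 := hsum.sum_add_tsum_nat_add n
  have h4 : ∑' k, a k - ∑ k ∈ Finset.range n, a k = ∑' k : ℕ, a (k + n) := by
    rw [← h3]; ring
  rw [h4, abs_of_nonneg (tsum_nonneg fun k => h0 (k + n))]
  have hs2 : Summable (fun k : ℕ => a (k + n)) := (summable_nat_add_iff n).2 hsum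
  calc _ ≤ ∑' k : ℕ, (1 / 2 : ℝ) ^ (k + (n + 2)) := by
        refine hs2.tsum_le_tsum (fun k => ?_) (summable_geo (n + 2))
        have := h1 (k + n)
        rwa [add_assoc] at this
    _ = 2 * (1 / 2 : ℝ) ^ (n + 2) := tsum_geo _
    _ ≤ 1 / 2 ^ n := by
        rw [pow_add, one_div_pow]
        have : (0 : ℝ) < 1 / 2 ^ n := by positivity
        nlinarith

theorem x0_sub_x0s (x : Machine × List ℕ) (n : ℕ) : |x0 x - x0s (x, n)| ≤ 1 / 2 ^ n :=
  tail_bound (fun n => if haltedAt x n then (1 / 2 : ℝ) ^ (n + 2) else 0)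
    (x0_term_nonneg x) (x0_term_le x) n

theorem CR_x0 : CR x0 := CR.limit CR_x0s x0_sub_x0s

end Vale.Agent.P113
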