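import Vale.Agent.P113.Flow

/-!
The trajectory of the origin.
-/

open scoped ContDiff
open Set MeasureTheory

namespace Vale.Agent.P113

/-- first coordinate of the trajectory of the origin -/
noncomputable def X0 (x : Machine × List ℕ) (t : ℝ) : ℝ := x0 x * ∫ s in (0 : ℝ)..t, h0 s

/-- second coordinate -/
noncomputable def X1 (x : Machine × List ℕ) (t : ℝ) : ℝ :=
  ∫ s in (0 : ℝ)..t, th s * hh (X0 x s)

noncomputable def traj (x : Machine × List ℕ) (t : ℝ) : R3 := ![X0 x t, X1 x t, 0]

theorem hasDerivAt_X0 (x : Machine × List ℕ) (t : ℝ) : HasDerivAt (X0 x) (x0 x * h0 t) t := by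
  have hc : Continuous h0 := h0_contDiff.continuous
  exact (intervalIntegral.integral_hasDerivAt_right (hc.intervalIntegrable _ _)
    (hc.stronglyMeasurableAtFilter _ _) hc.continuousAt).const_mul _

theorem continuous_X0 (x : Machine × List ℕ) : Continuous (X0 x) :=
  continuous_iff_continuousAt.2 fun t => (hasDerivAt_X0 x t).continuousAt

theorem continuous_integrand (x : Machine × List ℕ) : Continuous (fun s => th s * hh (X0 x s)) :=
  th_contDiff.continuous.mul (hh_contDiff.continuous.comp (continuous_X0 x))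

theorem hasDerivAt_X1 (x : Machine × List ℕ) (t : ℝ) :
    HasDerivAt (X1 x) (th t * hh (X0 x t)) t := by
  have hc := continuous_integrand x
  exact intervalIntegral.integral_hasDerivAt_right (hc.intervalIntegrable _ _)
    (hc.stronglyMeasurableAtFilter _ _) hc.continuousAt

theorem isTrajectory (x : Machine × List ℕ) : IsTrajectory (vel x) 0 (traj x) := by
  refine ⟨?_, fun t _ => ?_⟩
  · funext i
    fin_cases i <;> simp [traj, X0, X1]
  · apply HasDerivAt.hasDerivWithinAt
    rw [hasDerivAt_pi]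
    intro i
    fin_cases i
    · exact hasDerivAt_X0 x t
    · exact hasDerivAt_X1 x t
    · exact hasDerivAt_const _ _

/-- uniqueness for a scalar quadrature -/
theorem quad_unique {F G F' : ℝ → ℝ} (hF : ∀ t, 0 ≤ t → HasDerivWithinAt F (F' t) (Ici 0) t)
    (hG : ∀ t, 0 ≤ t → HasDerivWithinAt G (F' t) (Ici 0) t) (h0 : F 0 = G 0) {t : ℝ}
    (ht : 0 ≤ t) : F t = G t := by
  have hd : ∀ s, 0 ≤ s → HasDerivWithinAt (fun s => F s - G s) 0 (Ici 0) s := fun s hs => by
    have := (hF s hs).sub (hG s hs)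
    rw [sub_self] at this
    exact this
  have h1 := constant_of_has_deriv_right_zero (f := fun s => F s - G s) (a := 0) (b := t)
    (fun s hs => ((hd s hs.1).continuousWithinAt).mono (fun r hr => hr.1))
    (fun s hs => (hd s hs.1).mono (fun r hr => hs.1.trans hr)) t ⟨ht, le_rfl⟩
  linarith

theorem traj_unique (x : Machine × List ℕ) {Y : ℝ → R3} (hY : IsTrajectory (vel x) 0 Y) {t : ℝ}
    (ht : 0 ≤ t) : Y t = traj x t := by
  obtain ⟨hY0, hYd⟩ := hY
  obtain ⟨hX0, hXd⟩ := isTrajectory x
  have hYi : ∀ i : Fin 3, ∀ t, 0 ≤ t →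
      HasDerivWithinAt (fun s => Y s i) (vel x t (Y t) i) (Ici 0) t := fun i t ht =>
    hasDerivWithinAt_pi.1 (hYd t ht) i
  have hXi : ∀ i : Fin 3, ∀ t, 0 ≤ t →
      HasDerivWithinAt (fun s => traj x s i) (vel x t (traj x t) i) (Ici 0) t := fun i t ht =>
    hasDerivWithinAt_pi.1 (hXd t ht) i
  have h00 : ∀ i, Y 0 i = traj x 0 i := fun i => by rw [hY0, hX0]
  have e0 : ∀ t, 0 ≤ t → Y t 0 = traj x t 0 := fun t ht =>
    quad_unique (F' := fun t => x0 x * h0 t) (hYi 0) (hXi 0) (h00 0) ht
  have e1 : ∀ t, 0 ≤ t → Y t 1 = traj x t 1 := fun t ht =>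
    quad_unique (F' := fun t => th t * hh (traj x t 0))
      (fun s hs => by have := hYi 1 s hs; simpa [vel, e0 s hs] using this)
      (fun s hs => by have := hXi 1 s hs; simpa [vel] using this) (h00 1) ht
  have e2 : ∀ t, 0 ≤ t → Y t 2 = traj x t 2 := fun t ht =>
    quad_unique (F' := fun _ => 0)
      (fun s hs => by have := hYi 2 s hs; simpa [vel] using this)
      (fun s hs => by have := hXi 2 s hs; simpa [vel] using this) (h00 2) ht
  funext i
  fin_cases i
  · exact e0 t ht
  · exact e1 t ht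
  · exact e2 t ht

/-! ### When does the trajectory move? -/

theorem traj_of_not_halts {x : Machine × List ℕ} (h : x0 x = 0) (t : ℝ) : traj x t = 0 := by
  have h1 : ∀ t, X0 x t = 0 := fun t => by simp [X0, h]
  funext i
  fin_cases i
  · simp [traj, h1]
  · simp [traj, X1, h1, hh_zero]
  · simp [traj]

/-- the mass of the bump -/
noncomputable def c0 : ℝ := ∫ s in (0 : ℝ)..1, h0 s

theorem c0_pos : 0 < c0 := by
  unfold c0
  apply intervalIntegral.intervalIntegral_pos_of_pos_on
    (h0_contDiff.continuous.intervalIntegrable _ _)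
  · intro s hs; exact h0_pos hs.1 hs.2
  · norm_num

theorem c0_le : c0 ≤ 1 := by
  unfold c0
  have : ∫ s in (0 : ℝ)..1, h0 s ≤ ∫ _ in (0 : ℝ)..1, (1 : ℝ) := by
    apply intervalIntegral.integral_mono_on (by norm_num)
      (h0_contDiff.continuous.intervalIntegrable _ _) (by simp)
    intro s _; exact h0_le_one s
  simpa using this

theorem X0_of_ge (x : Machine × List ℕ) {t : ℝ} (ht : 1 ≤ t) : X0 x t = x0 x * c0 := by
  unfold X0 c0
  congr 1
  have hi : ∀ a b : ℝ, IntervalIntegrable h0 volume a b := fun a b =>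
    h0_contDiff.continuous.intervalIntegrable _ _
  rw [← intervalIntegral.integral_add_adjacent_intervals (hi 0 1) (hi 1 t)]
  have : ∫ s in (1 : ℝ)..t, h0 s = ∫ _ in (1 : ℝ)..t, (0 : ℝ) := by
    apply intervalIntegral.integral_congr
    intro s hs
    rw [uIcc_of_le ht] at hs
    exact h0_of_ge hs.1
  rw [this]; simp

theorem X1_one (x : Machine × List ℕ) : X1 x 1 = 0 := by
  unfold X1
  have : ∫ s in (0 : ℝ)..1, th s * hh (X0 x s) = ∫ _ in (0 : ℝ)..1, (0 : ℝ) := by
    apply intervalIntegral.integral_congr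
    intro s hs
    rw [uIcc_of_le (by norm_num)] at hs
    rcases eq_or_lt_of_le hs.2 with h | h
    · subst h
      simp only
      rw [th_of_ge le_rfl]
      have : hh 1 = 0 := by
        have := hh_add_one 0
        rw [zero_add] at this
        rw [this, hh_zero]
      rw [this, zero_mul]
    · simp only
      rw [th_of_lt hs.1 h, zero_mul]
  rw [this]; simp

theorem integral_hh_unit (n : ℕ) : ∫ s in ((n : ℝ) + 1)..((n : ℝ) + 2), hh s = c0 := by
  have hp : Function.Periodic hh 1 := fun s => hh_add_one s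
  have h1 := hp.intervalIntegral_add_eq ((n : ℝ) + 1) 0
  have h2 : (n : ℝ) + 1 + 1 = n + 2 := by ring
  rw [h2, zero_add] at h1
  rw [h1]
  unfold c0
  apply intervalIntegral.integral_congr
  intro s hs
  rw [uIcc_of_le (by norm_num)] at hs
  rcases eq_or_lt_of_le hs.2 with h | h
  · subst h
    have h5 := hh_add_one 0
    rw [zero_add] at h5
    rw [h5, hh_zero, h0_of_ge le_rfl]
  · exact hh_of_mem hs.1 h

theorem X1_nat (x : Machine × List ℕ) (n : ℕ) :
    X1 x ((n : ℝ) + 1) = n * (c0 * hh (x0 x * c0)) := by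
  induction n with
  | zero => simp [X1_one]
  | succ n ih =>
    have hc := continuous_integrand x
    have hi : ∀ a b : ℝ, IntervalIntegrable (fun s => th s * hh (X0 x s)) volume a b :=
      fun a b => hc.intervalIntegrable _ _
    have h1 : X1 x ((n : ℝ) + 2) = X1 x ((n : ℝ) + 1)
        + ∫ s in ((n : ℝ) + 1)..((n : ℝ) + 2), th s * hh (X0 x s) := by
      unfold X1
      rw [intervalIntegral.integral_add_adjacent_intervals (hi _ _) (hi _ _)]
    have h2 : ∫ s in ((n : ℝ) + 1)..((n : ℝ) + 2), th s * hh (X0 x s)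
        = ∫ s in ((n : ℝ) + 1)..((n : ℝ) + 2), hh s * hh (x0 x * c0) := by
      apply intervalIntegral.integral_congr
      intro s hs
      rw [uIcc_of_le (by linarith)] at hs
      have hs1 : 1 ≤ s := by
        have : (0 : ℝ) ≤ n := Nat.cast_nonneg n
        linarith [hs.1]
      simp only
      rw [th_of_ge hs1, X0_of_ge x hs1]
    have h3 : ((n + 1 : ℕ) : ℝ) + 1 = n + 2 := by push_cast; ring
    rw [h3, h1, ih, h2, intervalIntegral.integral_mul_const, integral_hh_unit]
    push_cast; ring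

/-- The target set. -/
def target : Set (Fin 3 → UnitAddCircle) := {z | 1 / 4 < ‖z 1‖}

theorem isOpen_target : IsOpen target :=
  isOpen_lt continuous_const ((continuous_apply 1).norm)

theorem traj_hits_iff (x : Machine × List ℕ) :
    (∃ t, 0 ≤ t ∧ toTorus (traj x t) ∈ target) ↔ x.1.Halts x.2 := by
  rw [← x0_pos_iff]
  constructor
  · rintro ⟨t, _, ht⟩
    by_contra hn
    have h0 : x0 x = 0 := le_antisymm (not_lt.1 hn) (x0_nonneg x)
    rw [traj_of_not_halts h0] at ht
    simp [target, toTorus] at ht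
    norm_num at ht
  · intro hpos
    -- speed per period
    set δ := c0 * hh (x0 x * c0) with hδ
    have hx : 0 < x0 x * c0 := mul_pos hpos c0_pos
    have hx1 : x0 x * c0 < 1 := by nlinarith [x0_le x, c0_le, c0_pos]
    have hδpos : 0 < δ := by
      rw [hδ, hh_of_mem hx.le hx1]
      exact mul_pos c0_pos (h0_pos hx hx1)
    obtain ⟨n, hn⟩ := exists_nat_ge ((1 / 2) / δ)
    have hn1 : 1 / 2 ≤ X1 x ((n : ℝ) + 1) := by
      rw [X1_nat, ← hδ]
      rwa [div_le_iff₀ hδpos] at hn
    have hcont : ContinuousOn (X1 x) (Icc 1 ((n : ℝ) + 1)) := fun s _ =>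
      (hasDerivAt_X1 x s).continuousAt.continuousWithinAt
    have hle : (1 : ℝ) ≤ (n : ℝ) + 1 := by
      have : (0 : ℝ) ≤ n := Nat.cast_nonneg n
      linarith
    have hivt := intermediate_value_Icc hle hcont
    rw [X1_one] at hivt
    obtain ⟨s, hs, hs2⟩ := hivt ⟨by norm_num, hn1⟩
    refine ⟨s, by linarith [hs.1], ?_⟩
    show 1 / 4 < ‖((traj x s 1 : ℝ) : UnitAddCircle)‖
    have : traj x s 1 = 1 / 2 := by simp [traj, hs2]
    rw [this, UnitAddCircle.norm_eq]
    have hr : round (1 / 2 : ℝ) = 1 := by norm_num [round_eq]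
    rw [hr]
    norm_num

end Vale.Agent.P113
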