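import Vale.Agent.P113.Energy

/-!
Uniqueness of classical solutions of the Navier-Stokes system on the torus.
-/

open scoped ContDiff
open Set MeasureTheory

namespace Vale.Agent.P113

/-- invariance under integer translations -/
theorem periodic_fract {E : Type} {g : R3 → E} (h : Periodic3 g) (x : R3) :
    g (fun i => Int.fract (x i)) = g x := by
  have hp : ∀ i : Fin 3, Function.Periodic g (Pi.single i 1 : R3) := fun i y => h y i
  have e : (fun i => Int.fract (x i)) = x - ⌊x 0⌋ • (Pi.single 0 1 : R3)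
      - ⌊x 1⌋ • (Pi.single 1 1 : R3) - ⌊x 2⌋ • (Pi.single 2 1 : R3) := by
    funext i
    fin_cases i <;> simp
  rw [e, (hp 2).sub_zsmul_eq, (hp 1).sub_zsmul_eq, (hp 0).sub_zsmul_eq]

theorem fract_mem_cube (x : R3) : (fun i => Int.fract (x i)) ∈ cube :=
  ⟨fun _ => Int.fract_nonneg _, fun _ => (Int.fract_lt_one _).le⟩

theorem cube_subset_closure : cube ⊆ closure (interior cube) := by
  have hc : Convex ℝ cube := convex_Icc 0 1
  have hne : (interior cube).Nonempty := by
    refine ⟨fun _ => 1 / 2, ?_⟩
    rw [mem_interior]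
    refine ⟨Set.pi univ fun _ => Ioo (0 : ℝ) 1, ?_, isOpen_set_pi finite_univ fun _ _ => isOpen_Ioo,
      ?_⟩
    · intro y hy
      exact ⟨fun i => (hy i (mem_univ i)).1.le, fun i => (hy i (mem_univ i)).2.le⟩
    · intro i _; norm_num
  rw [hc.closure_interior_eq_closure_of_nonempty_interior hne]
  exact subset_closure

/-- A nonnegative continuous function with zero integral over the cube vanishes on the cube. -/
theorem eq_zero_of_integral {g : R3 → ℝ} (hg : Continuous g) (h0 : ∀ x, 0 ≤ g x)
    (hi : ∫ x in cube, g x = 0) : ∀ x ∈ cube, g x = 0 := by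
  have hint : IntegrableOn g cube := hg.continuousOn.integrableOn_compact isCompact_Icc
  have h1 : g =ᵐ[volume.restrict cube] 0 :=
    (integral_eq_zero_iff_of_nonneg_ae (Filter.Eventually.of_forall h0) hint).1 hi
  have h2 : EqOn g 0 cube := Measure.eqOn_of_ae_eq h1 hg.continuousOn continuousOn_const
    cube_subset_closure
  exact h2

/-- A function on the torus whose partial derivatives vanish and whose mean is zero is zero. -/
theorem eq_zero_of_dx {g : R3 → ℝ} (hg : ContDiff ℝ 1 g) (hd : ∀ i x, dx i g x = 0)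
    (hm : ∫ x in cube, g x = 0) : g = 0 := by
  have hdiff : Differentiable ℝ g := hg.differentiable (by norm_num)
  have hf : ∀ x, fderiv ℝ g x = 0 := by
    intro x
    ext v
    have hv : v = ∑ i, v i • (Pi.single i 1 : R3) := by
      funext j
      simp [Finset.sum_apply, Pi.single_apply]
    rw [hv, map_sum]
    simp only [map_smul, zero_apply]
    refine Finset.sum_eq_zero fun i _ => ?_
    rw [← dx_eq_fderiv (hdiff x), hd, smul_zero]
  have hc : ∀ x y, g x = g y := is_const_of_fderiv_eq_zero hdiff hf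
  have h1 : ∫ x in cube, g x = ∫ _ in cube, g 0 := by
    congr 1; funext x; exact hc x 0
  rw [h1, setIntegral_const] at hm
  have hvol : volume.real cube = 1 := by
    simp [Measure.real, cube, Real.volume_Icc_pi]
  rw [hvol, one_smul] at hm
  funext x
  rw [hc x 0, hm]
  rfl

theorem slice_continuous {g : ℝ × R3 → ℝ} {T t : ℝ} (hg : ContinuousOn g (Icc 0 T ×ˢ univ))
    (ht : t ∈ Icc 0 T) : Continuous (fun x => g (t, x)) := by
  rw [← continuousOn_univ]
  exact hg.comp (Continuous.continuousOn (by fun_prop)) fun x _ => ⟨ht, mem_univ _⟩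

theorem bound_on {g : ℝ × R3 → ℝ} {T : ℝ} (hg : ContinuousOn g (Icc 0 T ×ˢ univ)) :
    ∃ C, ∀ t ∈ Icc 0 T, ∀ x ∈ cube, |g (t, x)| ≤ C := by
  have hc : IsCompact (Icc 0 T ×ˢ cube) := isCompact_Icc.prod isCompact_Icc
  obtain ⟨C, hC⟩ := hc.exists_bound_of_continuousOn (hg.mono (prod_mono le_rfl (subset_univ _)))
  exact ⟨C, fun t ht x hx => hC (t, x) ⟨ht, hx⟩⟩

/-- Gronwall argument for a nonnegative density on the torus. -/
theorem gronwall_density {T c : ℝ} (hT : 0 < T) {W W' : ℝ → R3 → ℝ}
    (cW : ContinuousOn (fun z : ℝ × R3 => W z.1 z.2) (Icc 0 T ×ˢ univ))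
    (cW' : ContinuousOn (fun z : ℝ × R3 => W' z.1 z.2) (Icc 0 T ×ˢ univ))
    (hd : ∀ t ∈ Ioo 0 T, ∀ x, HasDerivAt (fun s => W s x) (W' t x) t)
    (hnn : ∀ t x, 0 ≤ W t x) (h0 : ∀ x, W 0 x = 0)
    (hc : ∀ t ∈ Icc 0 T, ∫ x in cube, W' t x ≤ c * ∫ x in cube, W t x) :
    ∀ t ∈ Icc 0 T, ∀ x ∈ cube, W t x = 0 := by
  have sW : ∀ t ∈ Icc 0 T, Continuous (W t) := fun t ht => slice_continuous cW ht
  have sW' : ∀ t ∈ Icc 0 T, Continuous (W' t) := fun t ht => slice_continuous cW' ht
  obtain ⟨C0, hC0⟩ := bound_on cW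
  obtain ⟨C1, hC1⟩ := bound_on cW'
  have hfin : IsFiniteMeasure (volume.restrict cube) :=
    ⟨by rw [Measure.restrict_apply_univ]; exact isCompact_Icc.measure_lt_top⟩
  have cE : ContinuousOn (fun t => ∫ x in cube, W t x) (Icc 0 T) := by
    apply continuousOn_of_dominated (bound := fun _ => C0)
    · intro t ht
      exact (sW t ht).aestronglyMeasurable
    · intro t ht
      filter_upwards [ae_restrict_mem measurableSet_Icc] with x hx
      exact hC0 t ht x hx
    · exact integrable_const _
    · filter_upwards with x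
      have hcx : Continuous (fun t : ℝ => (t, x)) := by fun_prop
      exact cW.comp (f := fun t : ℝ => (t, x)) hcx.continuousOn fun t ht => ⟨ht, mem_univ _⟩
  have dE : ∀ t ∈ Ioo 0 T, HasDerivAt (fun t => ∫ x in cube, W t x) (∫ x in cube, W' t x) t := by
    intro t ht
    have hnhds : Ioo 0 T ∈ nhds t := Ioo_mem_nhds ht.1 ht.2
    have hint : Integrable (W t) (volume.restrict cube) :=
      (sW t ⟨ht.1.le, ht.2.le⟩).continuousOn.integrableOn_compact isCompact_Icc
    refine (hasDerivAt_integral_of_dominated_loc_of_deriv_le (μ := volume.restrict cube)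
      (F := W) (F' := W') (bound := fun _ => C1) hnhds ?_ hint ?_ ?_ ?_ ?_).2
    · filter_upwards [hnhds] with s hs
      exact (sW s ⟨hs.1.le, hs.2.le⟩).aestronglyMeasurable
    · exact (sW' t ⟨ht.1.le, ht.2.le⟩).aestronglyMeasurable
    · filter_upwards [ae_restrict_mem measurableSet_Icc] with x hx s hs
      exact hC1 s ⟨hs.1.le, hs.2.le⟩ x hx
    · exact integrable_const _
    · filter_upwards with x s hs
      exact hd s hs x
  have hEnn : ∀ t, 0 ≤ ∫ x in cube, W t x := fun t => integral_nonneg fun x => hnn t x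
  have hE0 : ∫ x in cube, W 0 x = 0 := by simp [h0]
  generalize hE : (fun t => ∫ x in cube, W t x) = E at cE dE
  generalize hE' : (fun t => ∫ x in cube, W' t x) = E' at *
  have eE : ∀ t, ∫ x in cube, W t x = E t := fun t => congrFun hE t
  have eE' : ∀ t, ∫ x in cube, W' t x = E' t := fun t => congrFun hE' t
  simp only [eE] at hEnn hE0 hc
  simp only [eE'] at hc dE
  have hφc : ContinuousOn (fun t => E t * Real.exp (-(c * t))) (Icc 0 T) :=
    cE.mul (Continuous.continuousOn (by fun_prop))
  have hφd : ∀ t ∈ Ioo 0 T, HasDerivAt (fun t => E t * Real.exp (-(c * t)))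
      (E' t * Real.exp (-(c * t)) + E t * (Real.exp (-(c * t)) * (-(c * 1)))) t := fun t ht =>
    (dE t ht).mul ((((hasDerivAt_id t).const_mul c).fun_neg).exp)
  have hanti : AntitoneOn (fun t => E t * Real.exp (-(c * t))) (Icc 0 T) := by
    apply antitoneOn_of_deriv_nonpos (convex_Icc 0 T) hφc
    · intro t ht
      rw [interior_Icc] at ht
      exact (hφd t ht).differentiableAt.differentiableWithinAt
    · intro t ht
      rw [interior_Icc] at ht
      rw [(hφd t ht).deriv]
      have h1 := hc t ⟨ht.1.le, ht.2.le⟩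
      have h2 := Real.exp_pos (-(c * t))
      nlinarith
  intro t ht
  have h1 := hanti ⟨le_rfl, hT.le⟩ ht ht.1
  simp only [hE0, zero_mul] at h1
  have h2 := Real.exp_pos (-(c * t))
  have h3 : E t ≤ 0 := by
    by_contra hcon
    push Not at hcon
    nlinarith [mul_pos hcon h2]
  have h4 : E t = 0 := le_antisymm h3 (hEnn t)
  rw [← eE] at h4
  exact eq_zero_of_integral (sW t ht) (hnn t) h4

/-- Uniqueness of classical solutions. -/
theorem classical_unique {ν T : ℝ} (hν : 0 ≤ ν) (hT : 0 < T) {f u v : ℝ → R3 → R3}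
    {p q : ℝ → R3 → ℝ} (hu : IsClassicalSolution ν T f u p) (hv : IsClassicalSolution ν T f v q) :
    ∀ t ∈ Icc 0 T, v t = u t ∧ q t = p t := by
  -- bound for the gradient of `u`
  obtain ⟨K, hK⟩ : ∃ K, ∀ t ∈ Icc 0 T, ∀ x ∈ cube, ∀ i j,
      |dx j (fun y => u t y i) x| ≤ K := by
    choose C hC using fun i j => bound_on (hu.cont_dx i j)
    refine ⟨∑ i, ∑ j, |C i j|, fun t ht x hx i j => ?_⟩
    have h1 : |C i j| ≤ ∑ j, |C i j| :=
      Finset.single_le_sum (f := fun j => |C i j|) (fun _ _ => abs_nonneg _) (Finset.mem_univ j)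
    have h2 : ∑ j, |C i j| ≤ ∑ i, ∑ j, |C i j| :=
      Finset.single_le_sum (f := fun i => ∑ j, |C i j|)
        (fun _ _ => Finset.sum_nonneg fun _ _ => abs_nonneg _) (Finset.mem_univ i)
    exact ((hC i j t ht x hx).trans (le_abs_self _)).trans (h1.trans h2)
  have hW := gronwall_density (c := 6 * K) hT
    (W := fun t x => ∑ i, (v t x i - u t x i) ^ 2)
    (W' := fun t x => ∑ i, 2 * (v t x i - u t x i)
    * (derivWithin (fun s => v s x i) (Icc 0 T) t - derivWithin (fun s => u s x i) (Icc 0 T) t))
    (continuousOn_finsetSum _ fun i _ => ((hv.cont_u i).sub (hu.cont_u i)).pow 2)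
    (continuousOn_finsetSum _ fun i _ =>
      (continuousOn_const.mul ((hv.cont_u i).sub (hu.cont_u i))).mul
        ((hv.cont_dt i).sub (hu.cont_dt i)))
    (fun s hs x => by
      have hs' : s ∈ Icc 0 T := ⟨hs.1.le, hs.2.le⟩
      have hn : Icc 0 T ∈ nhds s := Icc_mem_nhds hs.1 hs.2
      apply HasDerivAt.fun_sum
      intro i _
      have h1 := ((hv.diff_time s hs' x i).hasDerivWithinAt).hasDerivAt hn
      have h2 := ((hu.diff_time s hs' x i).hasDerivWithinAt).hasDerivAt hn
      exact ((h1.fun_sub h2).fun_pow 2).congr_deriv (by simp))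
    (fun t x => Finset.sum_nonneg fun i _ => sq_nonneg _)
    (fun x => by simp [hu.initial, hv.initial])
    (fun t ht => energy_ineq hν (hu.contDiff_u t ht) (hv.contDiff_u t ht) (hu.contDiff_p t ht)
      (hv.contDiff_p t ht) (hu.periodic_u t ht) (hv.periodic_u t ht) (hu.periodic_p t ht)
      (hv.periodic_p t ht) (A := fun x i => derivWithin (fun s => u s x i) (Icc 0 T) t)
      (B := fun x i => derivWithin (fun s => v s x i) (Icc 0 T) t) (F := f t)
      (fun i => slice_continuous (hu.cont_dt i) ht) (fun i => slice_continuous (hv.cont_dt i) ht)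
      (hu.momentum t ht) (hv.momentum t ht) (hu.div_free t ht) (hv.div_free t ht) (hK t ht))
  have huv : ∀ t ∈ Icc 0 T, v t = u t := by
    intro t ht
    have h1 := hW t ht
    have h2 : ∀ x ∈ cube, v t x = u t x := by
      intro x hx
      have h3 := h1 x hx
      funext i
      have h4 := (Finset.sum_eq_zero_iff_of_nonneg fun i _ => sq_nonneg _).1 h3 i
        (Finset.mem_univ i)
      have h5 : v t x i - u t x i = 0 := by simpa using h4
      linarith
    funext x
    have h6 := h2 _ (fract_mem_cube x)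
    rwa [periodic_fract (hv.periodic_u t ht), periodic_fract (hu.periodic_u t ht)] at h6
  intro t ht
  refine ⟨huv t ht, ?_⟩
  -- the pressure
  have hdt : ∀ x i, derivWithin (fun s => v s x i) (Icc 0 T) t
      = derivWithin (fun s => u s x i) (Icc 0 T) t := by
    intro x i
    apply derivWithin_congr
    · intro s hs; simp only [huv s hs]
    · simp only [huv t ht]
  have hdp : ∀ x i, dx i (q t) x = dx i (p t) x := by
    intro x i
    have h1 := hu.momentum t ht x i
    have h2 := hv.momentum t ht x i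
    rw [hdt, huv t ht] at h2
    linarith
  have h1 : (fun x => q t x - p t x) = 0 := by
    apply eq_zero_of_dx ((hv.contDiff_p t ht).sub (hu.contDiff_p t ht))
    · intro i x
      have a1 : DifferentiableAt ℝ (q t) x :=
        ((hv.contDiff_p t ht).differentiable (by norm_num)).differentiableAt
      have a2 : DifferentiableAt ℝ (p t) x :=
        ((hu.contDiff_p t ht).differentiable (by norm_num)).differentiableAt
      have a3 := (hasDerivAt_line a1 i).fun_sub (hasDerivAt_line a2 i)
      have a4 := hasDerivAt_line (a1.fun_sub a2) i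
      rw [a4.unique a3, hdp, sub_self]
    · rw [integral_sub, hv.mean_p t ht, hu.mean_p t ht, sub_zero]
      · exact (hv.contDiff_p t ht).continuous.continuousOn.integrableOn_compact isCompact_Icc
      · exact (hu.contDiff_p t ht).continuous.continuousOn.integrableOn_compact isCompact_Icc
  funext x
  have := congrFun h1 x
  simp only [Pi.zero_apply] at this
  linarith

end Vale.Agent.P113
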